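import Vale.Agent.P151.Growth.Defs

/-!
Balls, symmetries, chains of connections and percolation probabilities.
-/

open Finset MeasureTheory ProbabilityTheory
open scoped unitInterval

namespace Vale.Agent.P151.Growth

open Vale.Agent.P165

variable {W : Type*} [DecidableEq W] {H : SimpleGraph W} [H.LocallyFinite]

lemma self_mem_ball (x : W) (n : ℕ) : x ∈ ball H x n :=
  ball_mono x (Nat.zero_le n) (by simp [ball])

lemma mem_ball_succ {x y : W} {n : ℕ} :
    y ∈ ball H x (n + 1) ↔ y ∈ ball H x n ∨ ∃ w ∈ ball H x n, H.Adj w y := by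
  simp [ball, hull, mem_union, mem_biUnion]

lemma ball_add (x : W) : ∀ m n : ℕ, ∀ z : W,
    z ∈ ball H x (m + n) ↔ ∃ y ∈ ball H x m, z ∈ ball H y n
  | m, 0, z => by simp [ball]
  | m, n + 1, z => by
    rw [← Nat.add_assoc, mem_ball_succ, ball_add x m n z]
    simp only [ball_add x m n, mem_ball_succ]
    constructor
    · rintro (⟨y, hy, hz⟩ | ⟨w, ⟨y, hy, hw⟩, hwz⟩)
      · exact ⟨y, hy, Or.inl hz⟩
      · exact ⟨y, hy, Or.inr ⟨w, hw, hwz⟩⟩
    · rintro ⟨y, hy, hz | ⟨w, hw, hwz⟩⟩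
      · exact Or.inl ⟨y, hy, hz⟩
      · exact Or.inr ⟨w, ⟨y, hy, hw⟩, hwz⟩

lemma ball_symm {x y : W} : ∀ {n : ℕ}, y ∈ ball H x n → x ∈ ball H y n
  | 0, h => by simp only [ball, mem_singleton] at h ⊢; exact h.symm
  | n + 1, h => by
    rcases mem_ball_succ.1 h with h | ⟨w, hw, hwy⟩
    · exact mem_ball_succ.2 (Or.inl (ball_symm h))
    · rw [Nat.add_comm]
      exact (ball_add y 1 n x).2
        ⟨w, mem_ball_succ.2 (Or.inr ⟨y, by simp [ball], hwy.symm⟩), ball_symm hw⟩

lemma ball_map (φ : H ≃g H) (x : W) : ∀ n : ℕ, ∀ y, y ∈ ball H x n → φ y ∈ ball H (φ x) n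
  | 0, y, h => by simp only [ball, mem_singleton] at h ⊢; rw [h]
  | n + 1, y, h => by
    rcases mem_ball_succ.1 h with h | ⟨w, hw, hwy⟩
    · exact mem_ball_succ.2 (Or.inl (ball_map φ x n y h))
    · exact mem_ball_succ.2 (Or.inr ⟨φ w, ball_map φ x n w hw, φ.map_adj_iff.2 hwy⟩)

lemma exists_mem_ball (hH : H.Connected) (x y : W) : ∃ n, y ∈ ball H x n := by
  obtain ⟨q⟩ := hH.preconnected y x
  exact ⟨q.length, mem_ball_of_walk q le_rfl⟩

/-- Any vertex has translates near any other. -/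
theorem exists_near (hH : H.Connected) (hQT : QuasiTransitive H) :
    ∃ K, ∀ x y : W, ∃ φ : H ≃g H, φ y ∈ ball H x K := by
  obtain ⟨F, hFfin, hF⟩ := hQT
  choose n hn using exists_mem_ball hH
  set Ff := hFfin.toFinset with hFf
  refine ⟨Ff.sup fun f => Ff.sup fun g => n f g, fun x y => ?_⟩
  obtain ⟨ψ, hψ⟩ := hF x
  obtain ⟨φ, hφ⟩ := hF y
  refine ⟨φ.trans ψ.symm, ?_⟩
  have hle : n (ψ x) (φ y) ≤ Ff.sup fun f => Ff.sup fun g => n f g :=
    le_trans (Finset.le_sup (f := fun g => n (ψ x) g) (hFfin.mem_toFinset.2 hφ))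
      (Finset.le_sup (f := fun f => Ff.sup fun g => n f g) (hFfin.mem_toFinset.2 hψ))
  have := ball_map ψ.symm _ _ _ (ball_mono (ψ x) hle (hn (ψ x) (φ y)))
  simpa using this

/-- Degrees are bounded, hence so are balls. -/
theorem exists_ball_bound (hQT : QuasiTransitive H) :
    ∃ D : ℕ, (∀ x, (H.neighborFinset x).card ≤ D) ∧
      ∀ x n, (ball H x n).card ≤ (D + 1) ^ n := by
  obtain ⟨F, hFfin, hF⟩ := hQT
  refine ⟨hFfin.toFinset.sup fun f => (H.neighborFinset f).card, fun x => ?_, fun x n => ?_⟩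
  · obtain ⟨φ, hφ⟩ := hF x
    refine le_trans ?_ (Finset.le_sup (f := fun f => (H.neighborFinset f).card)
      (hFfin.mem_toFinset.2 hφ))
    refine Finset.card_le_card_of_injOn φ (fun y hy => ?_) φ.injective.injOn
    simpa [φ.map_adj_iff] using hy
  · induction n with
    | zero => simp [ball]
    | succ n ih =>
      set D := hFfin.toFinset.sup fun f => (H.neighborFinset f).card
      have hD : ∀ z, (H.neighborFinset z).card ≤ D := fun z => by
        obtain ⟨φ, hφ⟩ := hF z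
        refine le_trans ?_ (Finset.le_sup (f := fun f => (H.neighborFinset f).card)
          (hFfin.mem_toFinset.2 hφ))
        refine Finset.card_le_card_of_injOn φ (fun y hy => ?_) φ.injective.injOn
        simpa [φ.map_adj_iff] using hy
      calc (ball H x (n + 1)).card
          ≤ (ball H x n).card + ((ball H x n).biUnion fun z => H.neighborFinset z).card :=
            card_union_le _ _
        _ ≤ (ball H x n).card + (ball H x n).card * D :=
            Nat.add_le_add_left (card_biUnion_le_card_mul _ _ _ fun z _ => hD z) _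
        _ = (ball H x n).card * (D + 1) := by ring
        _ ≤ (D + 1) ^ (n + 1) := by rw [pow_succ]; exact Nat.mul_le_mul_right _ ih

omit [H.LocallyFinite] in
/-- Invariance under automorphisms. -/
lemma supPr_iso {p : ℝ} (h0 : 0 ≤ p) (h1 : p ≤ 1) (φ : H ≃g H)
    {Q R : Finset (Sym2 W) → Prop}
    (h : ∀ T, Q T → R (T.map φ.toEquiv.toEmbedding.sym2Map)) :
    supPr H p Q ≤ supPr H p R := by
  refine supPr_le h0 h1 fun U hU => ?_
  have hU' : ↑(U.map φ.toEquiv.toEmbedding.sym2Map) ⊆ H.edgeSet := by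
    intro e he
    obtain ⟨e', he', rfl⟩ := mem_map.1 (Finset.mem_coe.1 he)
    induction e' using Sym2.ind with
    | h a b => exact φ.map_adj_iff.2 (hU he')
  refine le_trans ?_ (pr_le_supPr h0 h1 hU')
  rw [pr_image]
  exact pr_mono h0 h1 fun T _ => h T

lemma tau_iso {p : ℝ} (h0 : 0 ≤ p) (h1 : p ≤ 1) (φ : H ≃g H) (x y : W) :
    tau H p (φ x) (φ y) = tau H p x y := by
  refine le_antisymm ?_ (supPr_iso h0 h1 φ fun T hT => (cl_map φ.toEquiv x y T).2 hT)
  have := supPr_iso (H := H) h0 h1 φ.symm (Q := conn (φ x) (φ y)) (R := conn (φ.symm (φ x))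
    (φ.symm (φ y))) fun T hT => (cl_map φ.symm.toEquiv (φ x) (φ y) T).2 hT
  simp only [RelIso.symm_apply_apply] at this
  exact this

omit [H.LocallyFinite] in
lemma big_map {x : W} {n : ℕ} (φ : H ≃g H) {T : Finset (Sym2 W)} (h : Big x n T) :
    Big (φ x) n (T.map φ.toEquiv.toEmbedding.sym2Map) := by
  obtain ⟨Y, hY, hn⟩ := h
  refine ⟨Y.map φ.toEquiv.toEmbedding, fun z hz => ?_, by rwa [card_map]⟩
  obtain ⟨y, hy, rfl⟩ := mem_map.1 (Finset.mem_coe.1 hz)
  exact (cl_map φ.toEquiv x y T).2 (hY hy)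

lemma bigP_iso {p : ℝ} (h0 : 0 ≤ p) (h1 : p ≤ 1) (φ : H ≃g H) (x : W) (n : ℕ) :
    bigP H p (φ x) n = bigP H p x n := by
  refine le_antisymm ?_ (supPr_iso h0 h1 φ fun _ hT => big_map φ hT)
  have := supPr_iso (H := H) h0 h1 φ.symm (Q := Big (φ x) n) (R := Big (φ.symm (φ x)) n)
    fun _ hT => big_map φ.symm hT
  simp only [RelIso.symm_apply_apply] at this
  exact this

/-- An edge is open with probability `p`. -/
lemma tau_adj {p : ℝ} (h0 : 0 ≤ p) (h1 : p ≤ 1) {x y : W} (h : H.Adj x y) :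
    p ≤ tau H p x y := by
  refine le_trans ?_ (pr_le_supPr h0 h1 (U := {s(x, y)}) (by simpa using h))
  have := pr_all_open (p := p) (Finset.Subset.refl ({s(x, y)} : Finset (Sym2 W)))
  rw [card_singleton, pow_one] at this
  conv_lhs => rw [← this]
  exact pr_mono h0 h1 fun S _ hS => cl_step (subset_cl _ _ rfl) (hS (mem_singleton_self _))

lemma tau_self {p : ℝ} (h0 : 0 ≤ p) (h1 : p ≤ 1) (x : W) : tau H p x x = 1 := by
  refine le_antisymm (supPr_le_one h0 h1) ?_
  refine le_trans ?_ (pr_le_supPr h0 h1 (U := ∅) (by simp))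
  rw [← pr_true p (∅ : Finset (Sym2 W))]
  exact pr_mono h0 h1 fun S _ _ => subset_cl _ _ rfl

lemma linked_one {p : ℝ} (h0 : 0 ≤ p) (h1 : p ≤ 1) : Linked H p 1 p := by
  intro x y hy
  rcases mem_ball_succ.1 hy with hy | ⟨w, hw, hwy⟩
  · simp only [ball, mem_singleton] at hy
    rw [hy, tau_self h0 h1]; exact h1
  · simp only [ball, mem_singleton] at hw
    exact tau_adj h0 h1 (hw ▸ hwy)

lemma Linked.mono_param {p q η : ℝ} (h0 : 0 ≤ p) (hpq : p ≤ q) (h1 : q ≤ 1) {R : ℕ}
    (hL : Linked H p R η) : Linked H q R η :=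
  fun x y hy => (hL x y hy).trans (tau_mono h0 hpq h1 x y)

/-- Chains of connections. -/
lemma Linked.chain {p η : ℝ} (h0 : 0 ≤ p) (h1 : p ≤ 1) {R : ℕ} (hL : Linked H p R η)
    (hη : 0 ≤ η) : ∀ k : ℕ, Linked H p (k * R) (η ^ k)
  | 0 => fun x y hy => by
    simp only [Nat.zero_mul, ball, mem_singleton] at hy
    rw [hy, pow_zero, tau_self h0 h1]
  | k + 1 => fun x y hy => by
    rw [Nat.succ_mul] at hy
    obtain ⟨w, hw, hwy⟩ := (ball_add x (k * R) R y).1 hy
    rw [pow_succ]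
    exact (mul_le_mul (Linked.chain h0 h1 hL hη k x w hw) (hL w y hwy) hη
      (tau_nonneg h0 h1 _ _)).trans (tau_trans h0 h1 x w y)

/-- The percolation probability bounds the probability of a big cluster. -/
theorem infAt_le_bigP [Countable W] (p : I) (x : W) (n : ℕ) :
    (bondMeasure H p).real (infAt H x) ≤ bigP H p x n := by
  haveI : IsProbabilityMeasure (bondMeasure H p) := by unfold bondMeasure; infer_instance
  refine le_trans (measureReal_mono ?_)
    (lift_real_le p (incr_big x n) fun U hU => pr_le_supPr p.2.1 p.2.2 hU)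
  intro ω hω
  obtain ⟨Y, hY, hn⟩ := Set.Infinite.exists_subset_card_eq hω n
  have : ∀ y ∈ Y, ω ∈ lift H (conn x y) := fun y hy => by rw [lift_conn]; exact hY hy
  choose T hT hTω hc using this
  refine ⟨Y.attach.biUnion fun y => T y.1 y.2, ?_, ?_, Y, fun y hy => ?_, hn.ge⟩
  · intro e he
    obtain ⟨y, -, hy⟩ := mem_biUnion.1 (Finset.mem_coe.1 he)
    exact hT _ _ hy
  · intro e he
    obtain ⟨y, -, hy⟩ := mem_biUnion.1 (Finset.mem_coe.1 he)
    exact hTω _ _ hy
  · exact cl_mono subset_rfl (subset_biUnion_of_mem (fun y : Y => T y.1 y.2)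
      (mem_attach Y ⟨y, hy⟩)) (hc y hy)

/-- A big cluster is witnessed by few open edges. -/
lemma exists_small_witness (x : W) (S : Finset (Sym2 W)) (Z : Finset W)
    (hZ : ∀ z ∈ Z, z ∈ cl {x} S) {n : ℕ} (hn : Z.card = n) :
    ∃ T, T ⊆ S ∧ T.card ≤ n ∧ ∃ Y : Finset W, ↑Y ⊆ cl {x} T ∧ n ≤ Y.card := by
  induction n generalizing Z with
  | zero => exact ⟨∅, empty_subset _, le_rfl, ∅, by simp, le_rfl⟩
  | succ n ih =>
    classical
    obtain ⟨z₀, hz₀⟩ := card_pos.1 (by rw [hn]; exact Nat.succ_pos n : 0 < Z.card)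
    obtain ⟨T, hTS, hTn, Y, hY, hYn⟩ := ih (Z := Z.erase z₀)
      (fun z hz => hZ z (mem_of_mem_erase hz)) (by rw [card_erase_of_mem hz₀, hn]; rfl)
    by_cases hbig : n + 1 ≤ (insert x Y).card
    · exact ⟨T, hTS, hTn.trans (Nat.le_succ n), insert x Y,
        by rw [coe_insert, Set.insert_subset_iff]; exact ⟨subset_cl _ _ rfl, hY⟩, hbig⟩
    have hYc : (insert x Y).card = n := le_antisymm (by omega)
      (hYn.trans (card_le_card (subset_insert x Y)))
    have hout : ∃ z ∈ Z, z ∉ insert x Y := by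
      by_contra h
      push Not at h
      have := card_le_card (s := Z) h
      omega
    obtain ⟨z, hz, hzY⟩ := hout
    have hex : ∃ a b, a ∈ (↑(insert x Y) : Set W) ∧ s(a, b) ∈ S ∧ b ∉ insert x Y := by
      by_contra h
      push Not at h
      exact hzY (cl_subset (Z := (↑(insert x Y) : Set W)) (by simp)
        (fun a b ha hab => h a b ha hab) (hZ z hz))
    obtain ⟨a, b, ha, hab, hb⟩ := hex
    have haT : a ∈ cl {x} T := by
      rcases mem_insert.1 ha with rfl | ha
      · exact subset_cl _ _ rfl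
      · exact hY ha
    refine ⟨insert s(a, b) T, insert_subset hab hTS, (card_insert_le _ _).trans (by omega),
      insert b (insert x Y), ?_, by rw [card_insert_of_notMem hb]; omega⟩
    rw [coe_insert, coe_insert, Set.insert_subset_iff, Set.insert_subset_iff]
    exact ⟨cl_step (cl_mono subset_rfl (subset_insert _ _) haT) (mem_insert_self _ _),
      subset_cl _ _ rfl, hY.trans (cl_mono subset_rfl (subset_insert _ _))⟩


omit [H.LocallyFinite] in
/-- A small loss in the parameter costs at most a power in the probability of a big cluster. -/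
theorem bigP_thin {p r : ℝ} (h0 : 0 ≤ p) (h1 : p ≤ 1) (hr0 : 0 ≤ r) (hr1 : r ≤ 1) (x : W)
    (n : ℕ) : r ^ n * bigP H p x n ≤ bigP H (p * r) x n := by
  have h0' : 0 ≤ p * r := mul_nonneg h0 hr0
  have h1' : p * r ≤ 1 := mul_le_one₀ h1 hr0 hr1
  rcases eq_or_lt_of_le (pow_nonneg hr0 n) with hr | hr
  · rw [← hr, zero_mul]; exact supPr_nonneg h0' h1'
  rw [← le_div_iff₀' hr]
  refine supPr_le h0 h1 fun U hU => ?_
  rw [le_div_iff₀' hr]
  refine le_trans ?_ (pr_le_supPr h0' h1' hU)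
  refine pr_thin h0 h1 hr0 hr1 U (Big x n) n ?_
  intro S _ ⟨Y, hY, hn⟩
  classical
  obtain ⟨Z, hZ, hZn⟩ := Finset.exists_subset_card_eq hn
  obtain ⟨T, hTS, hTn, hT⟩ := exists_small_witness x S Z (fun z hz => hY (hZ hz)) hZn
  exact ⟨T, hTS, hTn, fun S' h _ => ⟨hT.choose, hT.choose_spec.1.trans (cl_mono subset_rfl h),
    hT.choose_spec.2⟩⟩

end Vale.Agent.P151.Growth
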