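import Vale.Agent.P151.Growth.TwoGhost

/-!
Uniqueness at two parameters: two large clusters at `p` through vertices that are connected with
probability `τ` at a lower parameter coincide, up to an error measured by the susceptibility there.
-/

open Finset

namespace Vale.Agent.P151.Growth

open Vale.Agent.P165 Vale.Agent.P151.Fin

/-- Thinning a product configuration. -/
lemma ev_pr_thin {α : Type*} [DecidableEq α] (p r : ℝ) (U : Finset α)
    (Q : Finset α → Prop) :
    ev (fun _ => p) U (fun S => P165.pr r S Q) = P165.pr (p * r) U Q := by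
  classical
  induction U using Finset.induction_on generalizing Q with
  | empty => rw [ev_empty, P165.pr_empty, P165.pr_empty]
  | insert a U ha ih =>
    rw [ev_insert ha, P165.pr_insert (p * r) ha,
      ev_congr (f := fun S => P165.pr r (insert a S) Q)
        (g := fun S => r * P165.pr r S (fun T => Q (insert a T)) + (1 - r) * P165.pr r S Q)
        fun S hS => P165.pr_insert r (fun h => ha (hS h)) Q,
      ev_add, ev_mul_left, ev_mul_left, ih, ih]
    ring

variable {W : Type*} [DecidableEq W] {H : SimpleGraph W} [H.LocallyFinite]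

/-- A connection seen from the fresh configuration off a cluster. -/
def Touch (H : SimpleGraph W) (C : Set W) (y : W) (η : Finset (Sym2 W)) : Prop :=
  ∃ z, z ∈ cl {y} η ∧ z ∉ C ∧ ∃ c ∈ C, H.Adj c z

omit [DecidableEq W] [H.LocallyFinite] in
lemma incr_touch (C : Set W) (y : W) : Incr (Touch H C y) :=
  fun _ _ h ⟨z, hz, h'⟩ => ⟨z, cl_mono subset_rfl h hz, h'⟩

/-- The first vertex where a connection from `y` to a point of `C` meets `C`. -/
lemma touch_of_conn {Λ : Finset W} {C : Set W} {x y : W} {η : Finset (Sym2 W)}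
    (hη : η ⊆ inEdges H Λ) (hx : x ∈ C) (hy : y ∉ C) (h : y ∈ cl {x} η) :
    Touch H C y (away C η) := by
  by_contra hno
  have hsub : cl {y} η ⊆ cl {y} (away C η) ∩ Cᶜ := by
    refine cl_subset (by simpa using ⟨subset_cl _ _ rfl, hy⟩) fun u v hu huv => ?_
    have hv : v ∉ C := fun hv => hno ⟨u, hu.1, hu.2, v, hv, (mem_inEdges.1 (hη huv)).1.symm⟩
    refine ⟨cl_step hu.1 (mem_away.2 ⟨huv, fun w hw => ?_⟩), hv⟩
    rcases Sym2.mem_iff.1 hw with rfl | rfl
    · exact hu.2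
    · exact hv
  exact (hsub (conn_comm h)).2 hx

/-- The finite inequality. -/
theorem two_mul_conn_le {p r : ℝ} (h0 : 0 ≤ p) (h1 : p ≤ 1) (hr0 : 0 ≤ r) (hr1 : r ≤ 1)
    {Λ : Finset W} {x y : W} (hx : x ∈ Λ) (hy : y ∈ Λ) (n : ℕ) :
    Fin.pr (fun _ => p) (inEdges H Λ) (Two x y n) * P165.pr (p * r) (inEdges H Λ) (conn x y) ≤
      ∑ z ∈ Λ, ∑ c ∈ nbr H Λ z, ev (fun _ => p) (inEdges H Λ)
        (fun S => ind (Two c z n S) * P165.pr r S (conn z y)) := by
  classical
  set U := inEdges H Λ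
  set P : Sym2 W → ℝ := fun _ => p
  set A : Finset (Sym2 W) → Prop := fun K => Big x n K ∧ y ∉ cl {x} K
  set h : Set W → Finset (Sym2 W) → ℝ := fun C T => P165.pr r T (Touch H C y)
  have hP0 : ∀ e, 0 ≤ P e := fun _ => h0
  have hP1 : ∀ e, P e ≤ 1 := fun _ => h1
  have hA : ∀ S, A (clu {x} S) ↔ A S := fun S => by simp only [A, Big, cl_clu]
  have hB : ∀ S, y ∉ cl {x} S → (Big y n (away (cl {x} S) S) ↔ Big y n S) := fun S hS => by
    simp only [Big, cl_away (S := {x}) (T := {y}) (fun v hv => by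
      rw [Set.mem_singleton_iff] at hv; rwa [hv])]
  -- the probability that both clusters are big and distinct
  have e1 : Fin.pr P U (Two x y n) = ev P U fun S => ind (A S) *
      ev P U fun T => ind (Big y n (away (cl {x} S) T)) := by
    have e := ev_explore P U {x} fun K T => ind (A K) * ind (Big y n T)
    simp only [hA] at e
    refine Eq.trans ?_ (e.trans (ev_congr fun S _ => ev_mul_left _ _))
    refine ev_congr fun S _ => ?_
    rw [← ind_and]
    refine ind_congr ⟨fun ⟨a, b, c⟩ => ⟨⟨a, c⟩, (hB S c).2 b⟩,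
      fun ⟨⟨a, c⟩, b⟩ => ⟨a, (hB S c).1 b, c⟩⟩
  -- the fresh connection
  have e2 : ∀ S, S ⊆ U → A S →
      P165.pr (p * r) U (conn x y) ≤ ev P U fun T => h (cl {x} S) (away (cl {x} S) T) := by
    intro S _ hS
    have e : ∀ T, h (cl {x} S) (away (cl {x} S) T) =
        P165.pr r T (fun η => Touch H (cl {x} S) y (away (cl {x} S) η)) := by
      intro T
      show P165.pr r (away (cl {x} S) T) (Touch H (cl {x} S) y) = _
      rw [← pr_marginal r (away_subset (cl {x} S) T)]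
      refine pr_congr fun η hη => ?_
      have : away (cl {x} S) η = η ∩ away (cl {x} S) T := by
        ext e; simp only [mem_inter, mem_away]
        exact ⟨fun h => ⟨h.1, hη h.1, h.2⟩, fun h => ⟨h.1, h.2.2⟩⟩
      rw [this]
    simp only [e, P]
    rw [ev_pr_thin]
    exact P165.pr_mono (mul_nonneg h0 hr0) (mul_le_one₀ h1 hr0 hr1) fun η hη hc =>
      touch_of_conn hη (subset_cl _ _ rfl) hS.2 hc
  have e3 := ev_explore P U {x} fun K T => ind (A K) * (ind (Big y n T) * h (cl {x} K) T)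
  simp only [hA, cl_clu] at e3
  calc Fin.pr P U (Two x y n) * P165.pr (p * r) U (conn x y)
      ≤ ev P U fun S => ind (A S) * ev P U fun T =>
          ind (Big y n (away (cl {x} S) T)) * h (cl {x} S) (away (cl {x} S) T) := by
        rw [e1, mul_comm, ← ev_mul_left]
        refine ev_mono hP0 hP1 fun S hS => ?_
        by_cases hAS : A S
        swap
        · simp [ind_false hAS]
        rw [ind_true hAS, one_mul, one_mul, mul_comm]
        refine (mul_le_mul_of_nonneg_left (e2 S hS hAS)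
          (ev_nonneg hP0 hP1 fun _ _ => ind_nonneg _)).trans (ev_mul_ge hP0 hP1 U ?_ ?_)
        · exact fun _ _ hT => ind_mono (incr_big y n _ _ (away_mono subset_rfl hT))
        · exact fun _ _ hT => pr_mono_set hr0 hr1 (away_mono subset_rfl hT) (incr_touch _ y)
    _ = ev P U fun S => ind (A S) *
          (ind (Big y n (away (cl {x} S) S)) * h (cl {x} S) (away (cl {x} S) S)) := by
        rw [e3]
        exact ev_congr fun S _ => (ev_mul_left _ _).symm
    _ ≤ _ := by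
        simp only [← ev_sum]
        refine ev_mono hP0 hP1 fun S hS => ?_
        have hnn : 0 ≤ ∑ z ∈ Λ, ∑ c ∈ nbr H Λ z, ind (Two c z n S) * P165.pr r S (conn z y) :=
          sum_nonneg fun z _ => sum_nonneg fun c _ =>
            mul_nonneg (ind_nonneg _) (P165.pr_nonneg hr0 hr1 _ _)
        by_cases hAS : A S
        swap
        · rw [ind_false hAS, zero_mul]; exact hnn
        by_cases hBS : Big y n (away (cl {x} S) S)
        swap
        · rw [ind_false hBS, zero_mul, mul_zero]; exact hnn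
        rw [ind_true hAS, ind_true hBS, one_mul, one_mul]
        have hBy : Big y n S := (hB S hAS.2).1 hBS
        refine (P165.pr_mono hr0 hr1
          (R := fun η => ∃ z, z ∈ cl {y} η ∧ z ∈ Λ ∧ ∃ c ∈ nbr H Λ z, Two c z n S)
          fun η hη hT => ?_).trans ?_
        · obtain ⟨z, hz, -, c, hc, hcz⟩ := hT
          have hzS : z ∈ cl {y} S := cl_mono subset_rfl (hη.trans (away_subset _ _)) hz
          have hzC : z ∉ cl {x} S := fun h => hAS.2 (by
            rw [← cl_eq_of_mem h, cl_eq_of_mem hzS]; exact subset_cl _ _ rfl)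
          refine ⟨z, hz, cl_subset_window hS hy hzS, c, mem_inter.2
            ⟨(H.mem_neighborFinset _ _).2 hcz.symm, cl_subset_window hS hx hc⟩, ?_⟩
          obtain ⟨Yx, hYx, hnx⟩ := hAS.1
          obtain ⟨Yy, hYy, hny⟩ := hBy
          exact ⟨⟨Yx, by rwa [cl_eq_of_mem hc], hnx⟩, ⟨Yy, by rwa [cl_eq_of_mem hzS], hny⟩,
            fun h => hzC (cl_eq_of_mem hc ▸ h)⟩
        refine (pr_mono_set hr0 hr1 (away_subset _ S)
          (fun _ _ h ⟨z, hz, h'⟩ => ⟨z, cl_mono subset_rfl h hz, h'⟩)).trans ?_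
        refine (P165.pr_le_sum hr0 hr1 Λ
          (fun z η => (∃ c ∈ nbr H Λ z, Two c z n S) ∧ conn z y η)
          fun η _ ⟨z, hz, hzΛ, h'⟩ => ⟨z, hzΛ, h', conn_comm hz⟩).trans ?_
        refine sum_le_sum fun z _ => ?_
        by_cases hex : ∃ c ∈ nbr H Λ z, Two c z n S
        · obtain ⟨c, hc, h2⟩ := hex
          refine le_trans ?_ (single_le_sum (f := fun c => ind (Two c z n S) * P165.pr r S (conn z y))
            (fun c _ => mul_nonneg (ind_nonneg _) (P165.pr_nonneg hr0 hr1 _ _)) hc)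
          rw [ind_true h2, one_mul]
          exact P165.pr_mono hr0 hr1 fun η _ h => h.2
        · refine le_of_eq_of_le ?_ (sum_nonneg fun c _ =>
            mul_nonneg (ind_nonneg _) (P165.pr_nonneg hr0 hr1 _ _))
          simp [P165.pr, hex]

/-- On an amenable graph of bounded degree some set is almost as large as its neighbourhoods. -/
lemma exists_folner (hA : ¬ Nonamenable H) {D : ℕ}
    (hball : ∀ x n, (ball H x n).card ≤ (D + 1) ^ n) (m : ℕ) :
    ∃ V : Finset W, V.Nonempty ∧ (V.biUnion fun v => ball H v m).card ≤ 2 * V.card := by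
  classical
  simp only [Nonamenable, IsoAtLeast, not_exists, not_and, not_forall, not_le] at hA
  obtain ⟨A, hAfin, hAne, hlt⟩ := hA (((D : ℝ) + 1) ^ m)⁻¹ (by positivity)
  set V := hAfin.toFinset with hV
  set P := (V.biUnion fun v => H.neighborFinset v) \ V
  have hP : outerBoundary H A = (P : Set W) := by
    ext w
    simp only [outerBoundary, P, hV, coe_sdiff, coe_biUnion, Set.Finite.coe_toFinset, Set.mem_sdiff,
      Set.mem_iUnion, SimpleGraph.coe_neighborFinset, SimpleGraph.mem_neighborSet,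
      Set.mem_ofPred_eq, exists_prop]
    exact and_comm
  rw [hP, Set.ncard_coe_finset, Set.ncard_eq_toFinset_card A hAfin, ← hV] at hlt
  have hsub : ∀ k, k ≤ m → (V.biUnion fun v => ball H v k) ⊆ V ∪ P.biUnion fun w => ball H w m := by
    intro k hk z hz
    induction k generalizing z with
    | zero =>
      obtain ⟨v, hv, hz⟩ := mem_biUnion.1 hz
      simp only [ball, mem_singleton] at hz
      exact mem_union_left _ (hz ▸ hv)
    | succ k ih =>
      obtain ⟨v, hv, hz⟩ := mem_biUnion.1 hz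
      rw [Nat.add_comm] at hz
      obtain ⟨w, hw, hzw⟩ := (ball_add v 1 k z).1 hz
      by_cases hwV : w ∈ V
      · exact ih (by omega) (mem_biUnion.2 ⟨w, hwV, hzw⟩)
      rcases mem_ball_succ.1 hw with hw | ⟨u, hu, huw⟩
      · simp only [ball, mem_singleton] at hw
        exact absurd (hw ▸ hv) hwV
      · simp only [ball, mem_singleton] at hu
        subst hu
        refine mem_union_right _ (mem_biUnion.2 ⟨w, mem_sdiff.2 ⟨mem_biUnion.2
          ⟨u, hv, (H.mem_neighborFinset _ _).2 huw⟩, hwV⟩, ball_mono w (by omega : k ≤ m) hzw⟩)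
  refine ⟨V, hAfin.toFinset_nonempty.2 hAne, ?_⟩
  have hPV : P.card * (D + 1) ^ m ≤ V.card := by
    rw [inv_mul_eq_div, lt_div_iff₀ (by positivity)] at hlt
    exact_mod_cast hlt.le
  refine (card_le_card (hsub m le_rfl)).trans ((card_union_le _ _).trans ?_)
  have := (card_biUnion_le_card_mul P (fun w => ball H w m) _ fun w _ => hball w m).trans hPV
  omega

/-- The second moment of a cluster restricted to a finite set. -/
lemma sq_sum_conn_le (hH : H.Connected) (hQT : QuasiTransitive H) {p : ℝ} (h0 : 0 ≤ p)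
    (hp : p < pc H) (h1 : p ≤ 1) {Λ : Finset W} (Y : Finset W) {z : W} (hz : z ∈ Λ) :
    ∑ y ∈ Y, ∑ y' ∈ Y, P165.pr p (inEdges H Λ) (fun S => conn z y S ∧ conn z y' S) ≤
      chiStar H p ^ 3 := by
  set U := inEdges H Λ
  have hle : ∀ a b, P165.pr p U (conn a b) ≤ tau H p a b := fun a b =>
    pr_le_supPr h0 h1 (inEdges_edge Λ)
  have hs : ∀ a T, ∑ b ∈ T, P165.pr p U (conn a b) ≤ chiStar H p := fun a T =>
    (sum_le_sum fun b _ => hle a b).trans (sum_tau_le_chiStar hH hQT h0 hp h1 a T)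
  have h0' : ∀ a b, 0 ≤ P165.pr p U (conn a b) := fun a b => P165.pr_nonneg h0 h1 _ _
  have hx0 : 0 ≤ chiStar H p := (sum_nonneg fun b _ => h0' z b).trans (hs z Λ)
  calc _ ≤ ∑ y ∈ Y, ∑ y' ∈ Y, ∑ w ∈ Λ, P165.pr p U (conn z w) * P165.pr p U (conn w y) *
        P165.pr p U (conn w y') := sum_le_sum fun y _ => sum_le_sum fun y' _ =>
        pr_three_le h0 h1 U Λ z y y' fun w hw => cl_subset_window Finset.Subset.rfl hz hw
    _ = ∑ w ∈ Λ, P165.pr p U (conn z w) * (∑ y ∈ Y, P165.pr p U (conn w y)) *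
        (∑ y' ∈ Y, P165.pr p U (conn w y')) := by
        simp only [mul_sum, sum_mul]
        exact (sum_congr rfl fun y _ => sum_comm).trans
          (sum_comm.trans (sum_congr rfl fun w _ => sum_comm))
    _ ≤ ∑ w ∈ Λ, P165.pr p U (conn z w) * (chiStar H p * chiStar H p) :=
        sum_le_sum fun w _ => by
          rw [mul_assoc]
          exact mul_le_mul_of_nonneg_left
            (mul_le_mul (hs w Y) (hs w Y) (sum_nonneg fun b _ => h0' w b) hx0) (h0' z w)
    _ ≤ _ := by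
        rw [← sum_mul]
        exact (mul_le_mul_of_nonneg_right (hs z Λ) (mul_nonneg hx0 hx0)).trans_eq (by ring)

/-- The inequality at one translate of finite witnesses. -/
lemma translate_le {p p₀ : ℝ} (hp : 0 < p) (hp1 : p < 1) (hp₀ : 0 ≤ p₀) (hq1 : p₀ ≤ 1)
    (hr0 : 0 ≤ p₀ / p) (hr1 : p₀ / p ≤ 1) (hpr : p * (p₀ / p) = p₀) (φ : H ≃g H)
    {Λ : Finset W} {U₁ U₂ U₃ U₀ : Finset (Sym2 W)}
    (hmap : U₀.map φ.toEquiv.toEmbedding.sym2Map ⊆ inEdges H Λ) (hU : U₁ ∪ U₂ ∪ U₃ ⊆ U₀)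
    {x y : W} {n : ℕ} {bx bz b ε : ℝ}
    (h₁ : bx - ε ≤ P165.pr p U₁ (Big x n)) (h₂ : bz - ε ≤ P165.pr p U₂ (Big y n))
    (h₃ : b ≤ P165.pr p₀ U₃ (conn x y)) (hbz : ε ≤ bz) (hb : 0 ≤ b)
    (hx : φ x ∈ Λ) (hy : φ y ∈ Λ) :
    ((bx - ε) * (bz - ε) - tau H p x y) * b ≤ ∑ z ∈ Λ, ∑ c ∈ nbr H Λ z,
      ev (fun _ => p) (inEdges H Λ)
        (fun S => ind (Two c z n S) * P165.pr (p₀ / p) S (conn z (φ y))) := by
  classical
  set U := inEdges H Λ
  have h0 := hp.le
  have htr : ∀ {s : ℝ}, 0 ≤ s → s ≤ 1 → ∀ {Q Q' : Finset (Sym2 W) → Prop}, Incr Q → Incr Q' →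
      (∀ T, Q T → Q' (T.map φ.toEquiv.toEmbedding.sym2Map)) → ∀ U', U' ⊆ U₀ →
      P165.pr s U' Q ≤ P165.pr s U Q' := by
    intro s hs0 hs1 Q Q' hQ hQ' h U' hU'
    refine (pr_mono_set hs0 hs1 hU' hQ).trans ?_
    refine (P165.pr_mono hs0 hs1 fun T _ => h T).trans ?_
    rw [← pr_image]
    exact pr_mono_set hs0 hs1 hmap hQ'
  have hBx : bx - ε ≤ P165.pr p U (Big (φ x) n) := h₁.trans
    (htr h0 hp1.le (incr_big _ _) (incr_big _ _) (fun _ => big_map _) U₁
      ((subset_union_left.trans subset_union_left).trans hU))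
  have hBy : bz - ε ≤ P165.pr p U (Big (φ y) n) := h₂.trans
    (htr h0 hp1.le (incr_big _ _) (incr_big _ _) (fun _ => big_map _) U₂
      ((subset_union_right.trans subset_union_left).trans hU))
  have hC : b ≤ P165.pr p₀ U (conn (φ x) (φ y)) := h₃.trans
    (htr hp₀ hq1 (incr_conn _ _) (incr_conn _ _)
      (fun T => (cl_map φ.toEquiv x y T).2) U₃ (subset_union_right.trans hU))
  have hTwo : (bx - ε) * (bz - ε) - tau H p x y ≤
      Fin.pr (fun _ => p) U (Two (φ x) (φ y) n) := by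
    rw [pr_eq_uniform]
    have h := P165.pr_and_ge h0 hp1.le U (incr_big (φ x) n) (incr_big (φ y) n)
    have h' : P165.pr p U (fun S => Big (φ x) n S ∧ Big (φ y) n S) ≤
        P165.pr p U (Two (φ x) (φ y) n) + P165.pr p U (conn (φ x) (φ y)) := by
      rw [← P165.pr_or_and p U (Two (φ x) (φ y) n) (conn (φ x) (φ y))]
      refine le_add_of_le_of_nonneg (P165.pr_mono h0 hp1.le fun S _ h => ?_)
        (P165.pr_nonneg h0 hp1.le _ _)
      by_cases hc : conn (φ x) (φ y) S
      · exact Or.inr hc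
      · exact Or.inl ⟨h.1, h.2, hc⟩
    have h'' : P165.pr p U (conn (φ x) (φ y)) ≤ tau H p x y :=
      (pr_le_supPr h0 hp1.le (inEdges_edge Λ)).trans_eq (tau_iso h0 hp1.le φ x y)
    have := mul_le_mul hBx hBy (by linarith) (P165.pr_nonneg h0 hp1.le _ _)
    linarith
  refine le_trans ?_ (two_mul_conn_le h0 hp1.le hr0 hr1 hx hy n)
  rw [hpr]
  exact mul_le_mul hTwo hC hb (Fin.pr_nonneg (fun _ => h0) (fun _ => hp1.le) _)

/-- The translates together are controlled by the two-ghost inequality and the second moment. -/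
lemma average_le (hH : H.Connected) (hQT : QuasiTransitive H) {p p₀ pl : ℝ} (hp : 0 < p)
    (hp1 : p < 1) (hr0 : 0 ≤ p₀ / p) (hr1 : p₀ / p ≤ 1) (hpr : p * (p₀ / p) = p₀)
    (hp₀ : 0 ≤ p₀) (hpc : p₀ < pc H) (hpl : 0 < pl) (hplp : pl ≤ p) {D n : ℕ}
    (hD : ∀ x, (H.neighborFinset x).card ≤ D) (hn : 0 < n) {Λ : Finset W} (Y : Finset W)
    (hX : 1 ≤ chiStar H p₀) :
    ∑ y' ∈ Y, ∑ z ∈ Λ, ∑ c ∈ nbr H Λ z, ev (fun _ => p) (inEdges H Λ)
        (fun S => ind (Two c z n S) * P165.pr (p₀ / p) S (conn z y')) ≤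
      Λ.card * ((288 * Real.exp (D / 2) / pl + D) / 2 * Real.sqrt (chiStar H p₀ ^ 3) /
        Real.sqrt (Real.sqrt n)) := by
  classical
  set U := inEdges H Λ
  set X := chiStar H p₀
  set C₁ := 288 * Real.exp ((D : ℝ) / 2) / pl
  have h0 := hp.le
  have hq1 : p₀ ≤ 1 := by rw [← hpr]; exact mul_le_one₀ hp1.le hr0 hr1
  set Q := Real.sqrt (X ^ 3)
  have hQ : 0 < Q := Real.sqrt_pos.2 (by positivity)
  have hQ2 : Q * Q = X ^ 3 := Real.mul_self_sqrt (by positivity)
  have hsn : 0 < Real.sqrt n := Real.sqrt_pos.2 (Nat.cast_pos.2 hn)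
  set u := Real.sqrt (Real.sqrt n)
  have hu : 0 < u := Real.sqrt_pos.2 hsn
  have hu2 : u * u = Real.sqrt n := Real.mul_self_sqrt hsn.le
  set g : W → Finset (Sym2 W) → ℝ := fun z S => ∑ y' ∈ Y, P165.pr (p₀ / p) S (conn z y')
  have hg : ∀ z ∈ Λ, ev (fun _ => p) U (fun S => g z S * g z S) ≤ X ^ 3 := by
    intro z hz
    refine le_trans ?_ (sq_sum_conn_le hH hQT hp₀ hpc hq1 Y hz)
    calc _ ≤ ev (fun _ => p) U (fun S => ∑ y₁ ∈ Y, ∑ y₂ ∈ Y,
          P165.pr (p₀ / p) S (fun T => conn z y₁ T ∧ conn z y₂ T)) := by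
          refine ev_mono (fun _ => h0) (fun _ => hp1.le) fun S _ => ?_
          simp only [g, sum_mul_sum]
          exact sum_le_sum fun _ _ => sum_le_sum fun _ _ =>
            P165.pr_and_ge hr0 hr1 S (incr_conn _ _) (incr_conn _ _)
      _ = _ := by simp only [ev_sum, ev_pr_thin, hpr]; rfl
  have htwo : ∑ z ∈ Λ, ∑ c ∈ nbr H Λ z, Fin.pr (fun _ => p) U (Two c z n) ≤
      C₁ * Λ.card / Real.sqrt n := by
    calc _ = ∑ z ∈ Λ, ∑ c ∈ nbr H Λ z, Fin.pr (fun _ => p) U (Two z c n) := by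
          refine sum_congr rfl fun z _ => sum_congr rfl fun c _ => Fin.pr_congr fun S _ => ?_
          exact ⟨fun h => ⟨h.2.1, h.1, fun h' => h.2.2 (conn_comm h')⟩,
            fun h => ⟨h.2.1, h.1, fun h' => h.2.2 (conn_comm h')⟩⟩
      _ ≤ _ := two_ghost hp hp1 hD hn
      _ ≤ _ := by
          refine div_le_div_of_nonneg_right
            (mul_le_mul_of_nonneg_right ?_ (Nat.cast_nonneg _)) hsn.le
          exact div_le_div_of_nonneg_left (by positivity) hpl hplp
  have hamgm : ∀ t s : ℝ, t = 0 ∨ t = 1 →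
      t * s ≤ Q * u / 2 * t + (2 * (Q * u))⁻¹ * (s * s) := by
    intro t s ht
    have hL : 0 < Q * u := mul_pos hQ hu
    rcases ht with rfl | rfl
    · rw [zero_mul, mul_zero, zero_add]
      exact mul_nonneg (by positivity) (mul_self_nonneg _)
    · rw [one_mul, mul_one, inv_mul_eq_div, ← sub_nonneg]
      have : Q * u / 2 + s * s / (2 * (Q * u)) - s = (Q * u - s) ^ 2 / (2 * (Q * u)) := by
        field_simp; ring
      rw [this]; positivity
  calc _ = ∑ z ∈ Λ, ∑ c ∈ nbr H Λ z, ev (fun _ => p) U (fun S => ind (Two c z n S) * g z S) := by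
        rw [sum_comm]
        refine sum_congr rfl fun z _ => ?_
        rw [sum_comm]
        exact sum_congr rfl fun c _ => by simp only [g, mul_sum, ev_sum]
    _ ≤ ∑ z ∈ Λ, ∑ c ∈ nbr H Λ z, (Q * u / 2 * Fin.pr (fun _ => p) U (Two c z n) +
          (2 * (Q * u))⁻¹ * ev (fun _ => p) U (fun S => g z S * g z S)) := by
        refine sum_le_sum fun z _ => sum_le_sum fun c _ => ?_
        rw [Fin.pr, ← ev_mul_left, ← ev_mul_left, ← ev_add]
        exact ev_mono (fun _ => h0) (fun _ => hp1.le) fun S _ => hamgm _ _ (by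
          by_cases h : Two c z n S
          · exact Or.inr (ind_true h)
          · exact Or.inl (ind_false h))
    _ = Q * u / 2 * (∑ z ∈ Λ, ∑ c ∈ nbr H Λ z, Fin.pr (fun _ => p) U (Two c z n)) +
          (2 * (Q * u))⁻¹ *
            ∑ z ∈ Λ, (nbr H Λ z).card * ev (fun _ => p) U (fun S => g z S * g z S) := by
        simp only [sum_add_distrib, mul_sum, sum_const, nsmul_eq_mul]
        congr 1
        exact sum_congr rfl fun z _ => by ring
    _ ≤ Q * u / 2 * (C₁ * Λ.card / Real.sqrt n) +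
          (2 * (Q * u))⁻¹ * ((Λ.card : ℝ) * ((D : ℝ) * (Q * Q))) := by
        refine add_le_add (mul_le_mul_of_nonneg_left htwo (by positivity))
          (mul_le_mul_of_nonneg_left ?_ (by positivity))
        calc _ ≤ ∑ _z ∈ Λ, (D : ℝ) * (Q * Q) := sum_le_sum fun z hz => mul_le_mul
              (by exact_mod_cast (card_le_card inter_subset_left).trans (hD z))
              ((hg z hz).trans_eq hQ2.symm)
              (ev_nonneg (fun _ => h0) (fun _ => hp1.le) fun S _ => mul_self_nonneg _)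
              (Nat.cast_nonneg D)
          _ = _ := by rw [sum_const, nsmul_eq_mul]
    _ = _ := by
        rw [← hu2]
        field_simp

/-- Lowering the three witnesses by `ε` loses at most `8 ε`. -/
lemma slack {bx cy t t₀ ε R : ℝ} (hbx0 : 0 ≤ bx) (hbx : bx ≤ 1) (hcy0 : 0 ≤ cy) (hcy : cy ≤ 1)
    (ht : 0 ≤ t) (ht₀0 : 0 ≤ t₀) (ht₀ : t₀ ≤ 1) (hε : 0 ≤ ε) (hR : 0 ≤ R)
    (hab : ε < bx → ε < cy → 0 < t₀ - ε → ((bx - ε) * (cy - ε) - t) * (t₀ - ε) ≤ R) :
    (bx * cy - t) * t₀ ≤ R + 8 * ε := by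
  have h1 : bx * cy - t ≤ 1 := by
    have := mul_le_one₀ hbx hcy0 hcy
    linarith
  have hsmall : bx * cy - t ≤ ε → (bx * cy - t) * t₀ ≤ R + 8 * ε := fun h => by
    have := mul_le_mul_of_nonneg_right h ht₀0
    have := mul_le_mul_of_nonneg_left ht₀ hε
    linarith
  rcases le_or_gt bx ε with hb | hbx'
  · exact hsmall (by
      have := mul_le_mul_of_nonneg_left hcy hbx0
      linarith)
  rcases le_or_gt cy ε with hb | hcy'
  · exact hsmall (by
      have := mul_le_mul_of_nonneg_right hbx hcy0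
      linarith)
  rcases le_or_gt (t₀ - ε) 0 with hb | hb
  · have := mul_le_mul_of_nonneg_right h1 ht₀0
    linarith
  have e : (bx * cy - t) * t₀ = ((bx - ε) * (cy - ε) - t) * (t₀ - ε) +
      ε * (bx + cy - ε) * (t₀ - ε) + (bx * cy - t) * ε := by ring
  have e1 : ε * (bx + cy - ε) * (t₀ - ε) ≤ ε * 2 := by
    rw [mul_assoc]
    exact mul_le_mul_of_nonneg_left ((mul_le_mul (by linarith : bx + cy - ε ≤ 2)
      (by linarith : t₀ - ε ≤ 1) hb.le zero_le_two).trans_eq (mul_one 2)) hε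
  have e2 : (bx * cy - t) * ε ≤ ε := mul_le_of_le_one_left hε h1
  linarith [hab hbx' hcy' hb]

/-- Uniqueness at two parameters. -/
theorem boost (hH : H.Connected) (hQT : QuasiTransitive H) (hA : ¬ Nonamenable H)
    {pl : ℝ} (hpl : 0 < pl) :
    ∃ C : ℝ, 0 ≤ C ∧ ∀ p₀ p : ℝ, 0 ≤ p₀ → p₀ ≤ p → pl ≤ p → p < 1 → p₀ < pc H →
      ∀ (x y : W) (n : ℕ), 0 < n →
      (bigP H p x n * bigP H p y n - tau H p x y) * tau H p₀ x y ≤
        C * Real.sqrt (chiStar H p₀ ^ 3) / Real.sqrt (Real.sqrt n) := by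
  classical
  obtain ⟨K, hK⟩ := exists_near hH hQT
  obtain ⟨D, hD, hball⟩ := exists_ball_bound hQT
  set B : ℝ := ((D : ℝ) + 1) ^ K
  set C₁ : ℝ := 288 * Real.exp (D / 2) / pl
  have hB : 0 ≤ B := by positivity
  have hC₁ : 0 ≤ C₁ := by positivity
  refine ⟨B * (C₁ + D), by positivity, fun p₀ p hp₀ h0p hplp hp1 hpc x y n hn => ?_⟩
  have hp : 0 < p := hpl.trans_le hplp
  have h0 := hp.le
  have hq1 : p₀ ≤ 1 := h0p.trans hp1.le
  have hr0 : 0 ≤ p₀ / p := div_nonneg hp₀ h0
  have hr1 : p₀ / p ≤ 1 := (div_le_one hp).2 h0p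
  have hpr : p * (p₀ / p) = p₀ := mul_div_cancel₀ _ hp.ne'
  set X := chiStar H p₀
  have hX : 1 ≤ X := by
    refine le_trans ?_ (sum_tau_le_chiStar hH hQT hp₀ hpc hq1 x {x})
    rw [sum_singleton, tau_self hp₀ hq1]
  set Q := Real.sqrt (X ^ 3) with hQdef
  have hQ : 0 < Q := Real.sqrt_pos.2 (by positivity)
  have hQ2 : Q * Q = X ^ 3 := Real.mul_self_sqrt (by positivity)
  have hsn : 0 < Real.sqrt n := Real.sqrt_pos.2 (Nat.cast_pos.2 hn)
  set u := Real.sqrt (Real.sqrt n) with hudef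
  have hu : 0 < u := Real.sqrt_pos.2 hsn
  have hu2 : u * u = Real.sqrt n := Real.mul_self_sqrt hsn.le
  set R := B * (C₁ + D) * Q / u
  have hR : 0 ≤ R := by positivity
  refine le_of_forall_pos_le_add fun δ hδ => ?_
  set bx := bigP H p x n
  set by' := bigP H p y n
  set t := tau H p x y
  set t₀ := tau H p₀ x y
  have hbx : 0 ≤ bx ∧ bx ≤ 1 := ⟨supPr_nonneg h0 hp1.le, supPr_le_one h0 hp1.le⟩
  have hby : 0 ≤ by' ∧ by' ≤ 1 := ⟨supPr_nonneg h0 hp1.le, supPr_le_one h0 hp1.le⟩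
  have ht₀ : 0 ≤ t₀ ∧ t₀ ≤ 1 := ⟨supPr_nonneg hp₀ hq1, supPr_le_one hp₀ hq1⟩
  have ht : 0 ≤ t := supPr_nonneg h0 hp1.le
  set ε := δ / 8
  have hε : 0 < ε := by positivity
  -- finite witnesses
  obtain ⟨U₁, hU₁, h₁⟩ := exists_pr_gt (H := H) (Q := Big x n) h0 hp1.le (sub_lt_self bx hε)
  obtain ⟨U₂, hU₂, h₂⟩ := exists_pr_gt (H := H) (Q := Big y n) h0 hp1.le (sub_lt_self by' hε)
  obtain ⟨U₃, hU₃, h₃⟩ := exists_pr_gt (H := H) (Q := conn x y) hp₀ hq1 (sub_lt_self t₀ hε)
  set U₀ := U₁ ∪ U₂ ∪ U₃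
  have hU₀ : ↑U₀ ⊆ H.edgeSet := by simp [U₀, hU₁, hU₂, hU₃]
  choose d hd using exists_mem_ball hH y
  set m := (insert x (U₀.biUnion fun e => e.toFinset)).sup d
  have hm : ∀ e ∈ U₀, ∀ v ∈ e, v ∈ ball H y m := fun e he v hv =>
    ball_mono y (Finset.le_sup (f := d) (mem_insert_of_mem
      (mem_biUnion.2 ⟨e, he, Sym2.mem_toFinset.2 hv⟩))) (hd v)
  have hxm : x ∈ ball H y m := ball_mono y (Finset.le_sup (f := d) (mem_insert_self _ _)) (hd x)
  obtain ⟨V, hV, hL⟩ := exists_folner hA hball (K + m)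
  set Λ := V.biUnion fun v => ball H v (K + m)
  choose φ hφ using fun v => hK v y
  set Y := V.image fun v => φ v y
  have hcard : (Λ.card : ℝ) ≤ 2 * B * Y.card := by
    have h : V.card ≤ (D + 1) ^ K * Y.card := by
      refine card_le_mul_card_image _ _ fun y' _ => ?_
      refine (card_le_card fun v hv => ?_).trans (hball y' K)
      obtain ⟨-, rfl⟩ := mem_filter.1 hv
      exact ball_symm (hφ v)
    have h' : (V.card : ℝ) ≤ B * Y.card := by
      simp only [B]; exact_mod_cast h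
    have : (Λ.card : ℝ) ≤ 2 * V.card := by exact_mod_cast hL
    linarith
  have hin : ∀ v ∈ V, ∀ z ∈ ball H y m, φ v z ∈ Λ := by
    intro v hv z hz
    refine mem_biUnion.2 ⟨v, hv, (ball_add v K m _).2 ⟨φ v y, hφ v, ?_⟩⟩
    exact ball_map (φ v) y m z hz
  have hmap : ∀ v ∈ V, U₀.map (φ v).toEquiv.toEmbedding.sym2Map ⊆ inEdges H Λ := by
    intro v hv e he
    obtain ⟨e', he', rfl⟩ := mem_map.1 he
    induction e' using Sym2.ind with
    | h a b => exact mem_inEdges.2 ⟨(φ v).map_adj_iff.2 (hU₀ he'),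
        hin v hv a (hm _ he' a (Sym2.mem_mk_left _ _)),
        hin v hv b (hm _ he' b (Sym2.mem_mk_right _ _))⟩
  set U := inEdges H Λ
  set a := (bx - ε) * (by' - ε) - t
  set b := t₀ - ε
  have h8 : 8 * ε = δ := by simp only [ε]; ring
  rw [← h8]
  refine slack hbx.1 hbx.2 hby.1 hby.2 ht ht₀.1 ht₀.2 hε.le hR fun _ hby' hb => ?_
  -- every translate is bad with the same probability
  have hkey : ∀ y' ∈ Y, a * b ≤ ∑ z ∈ Λ, ∑ c ∈ nbr H Λ z,
      ev (fun _ => p) U (fun S => ind (Two c z n S) * P165.pr (p₀ / p) S (conn z y')) := by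
    intro y' hy'
    obtain ⟨v, hv, rfl⟩ := mem_image.1 hy'
    exact translate_le hp hp1 hp₀ hq1 hr0 hr1 hpr (φ v) (hmap v hv) subset_rfl h₁.le h₂.le h₃.le
      hby'.le hb.le (hin v hv x hxm) (hin v hv y (self_mem_ball y m))
  have hsum : (Y.card : ℝ) * (a * b) ≤ Λ.card * ((C₁ + D) / 2 * Q / u) := by
    refine le_trans ?_ (average_le hH hQT hp hp1 hr0 hr1 hpr hp₀ hpc hpl hplp hD hn Y hX)
    calc (Y.card : ℝ) * (a * b) = ∑ _y' ∈ Y, a * b := by rw [sum_const, nsmul_eq_mul]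
      _ ≤ _ := sum_le_sum hkey
  rcases Nat.eq_zero_or_pos Y.card with hY | hY
  · exact absurd hY (card_pos.2 (hV.image fun v => φ v y)).ne'
  have hY' : (0 : ℝ) < Y.card := Nat.cast_pos.2 hY
  refine le_of_mul_le_mul_left (hsum.trans ?_) hY'
  refine (mul_le_mul_of_nonneg_right hcard (by positivity)).trans_eq ?_
  simp only [R]; ring

end Vale.Agent.P151.Growth
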