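import Vale.Agent.P151.Growth.Ladder

/-!
The exponent of the connection length against the susceptibility climbs until it contradicts the
bound next to the threshold.
-/

open Finset Real Filter

namespace Vale.Agent.P151.Growth

open Vale.Agent.P165

lemma eventually_rpow {a b : ℝ} (hab : a < b) (C : ℝ) :
    ∀ᶠ x : ℝ in atTop, C * x ^ a ≤ x ^ b := by
  filter_upwards [(tendsto_rpow_atTop (sub_pos.2 hab)).eventually_ge_atTop C,
    eventually_gt_atTop 0] with x hx hx0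
  calc C * x ^ a ≤ x ^ (b - a) * x ^ a := mul_le_mul_of_nonneg_right hx (rpow_nonneg hx0.le _)
    _ = x ^ b := by rw [← rpow_add hx0, sub_add_cancel]

/-- The first bound: next to the threshold the susceptibility is a high power of `X`. -/
lemma climb_top {X κ At C ρ g ε γ s Y : ℝ} (hX1 : 1 ≤ X) (hκ : 0 < κ) (hγ : 0 ≤ γ) (hρ0 : 0 ≤ ρ)
    (hC : 1 ≤ C) (hρ : X ^ s ≤ ρ) (hs : g + ε ≤ (s + 1) * γ) (hAt : At ≤ X ^ g)
    (hb : 2 / κ * X ^ g ≤ X ^ (g + ε)) (hY : κ * (ρ * (C * X)) ^ γ ≤ Y + At) : X ^ g ≤ Y := by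
  have hX0 : 0 < X := by linarith
  have h6 : X ^ (g + ε) ≤ (ρ * (C * X)) ^ γ := by
    have h7 : X ^ (s + 1) ≤ ρ * (C * X) := by
      rw [rpow_add_one hX0.ne']
      exact mul_le_mul hρ (le_mul_of_one_le_left hX0.le hC) hX0.le hρ0
    refine le_trans ?_ (rpow_le_rpow (by positivity) h7 hγ)
    rw [← rpow_mul hX0.le]
    exact rpow_le_rpow_of_exponent_le hX1 hs
  rw [div_mul_eq_mul_div, div_le_iff₀ hκ] at hb
  have h8 := mul_le_mul_of_nonneg_left h6 hκ.le
  linarith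

/-- The bound next to the threshold turned into a power of `X`. -/
lemma climb_cap {X Y ρ A K γ ε s L : ℝ} (hX1 : 1 ≤ X) (hY : 0 ≤ Y) (hγ : 1 < γ) (hA : 0 ≤ A)
    (hK : 0 ≤ K) (hs0 : -ε ≤ s) (hρ : X ^ s ≤ ρ) (hL0 : 0 ≤ L) (hL : L ≤ K * X)
    (h : ρ ^ γ * Y ^ (γ - 1) ≤ A * L ^ γ)
    (hd : A * K ^ γ * X ^ (γ * (1 + ε)) ≤ X ^ (γ * (1 + ε) + 1)) :
    Y ≤ X ^ ((γ * (1 + ε) + 1) / (γ - 1)) := by
  have hX0 : 0 < X := by linarith
  have h8 : (X ^ (-ε)) ^ γ * Y ^ (γ - 1) ≤ A * (K * X) ^ γ :=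
    (mul_le_mul_of_nonneg_right (rpow_le_rpow (by positivity)
      ((rpow_le_rpow_of_exponent_le hX1 hs0).trans hρ) (by linarith)) (by positivity)).trans
      (h.trans (mul_le_mul_of_nonneg_left (rpow_le_rpow hL0 hL (by linarith)) hA))
  rw [← rpow_mul hX0.le, mul_rpow hK hX0.le, neg_mul, rpow_neg hX0.le,
    inv_mul_le_iff₀ (rpow_pos_of_pos hX0 _)] at h8
  refine (rpow_le_rpow_iff hY (by positivity) (by linarith : 0 < γ - 1)).1 ?_
  rw [← rpow_mul hX0.le, div_mul_cancel₀ _ (by linarith)]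
  refine (h8.trans_eq ?_).trans hd
  rw [show γ * (1 + ε) = ε * γ + γ by ring, rpow_add hX0]; ring

/-- Some rung multiplies by at most `X ^ ε`. -/
lemma pigeon {X ε β : ℝ} {N : ℕ} (hX : 1 < X) (hNβ : β < N * ε) (Y : ℕ → ℝ)
    (h0 : 1 ≤ Y 0) (hN : Y N ≤ X ^ β) : ∃ j, j < N ∧ Y (j + 1) ≤ X ^ ε * Y j := by
  have hX0 : 0 < X := by linarith
  by_contra hno
  push Not at hno
  have hind : ∀ j : ℕ, j ≤ N → X ^ ((j : ℝ) * ε) ≤ Y j := by
    intro j hj
    induction j with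
    | zero => rw [Nat.cast_zero, zero_mul, rpow_zero]; exact h0
    | succ j ih =>
      refine le_trans ?_ (hno j hj).le
      rw [Nat.cast_succ, add_mul, one_mul, rpow_add hX0, mul_comm]
      exact mul_le_mul_of_nonneg_left (ih (by omega)) (by positivity)
  linarith [hind N le_rfl, rpow_lt_rpow_of_exponent_lt hX hNβ]

/-- The new exponent. -/
lemma climb_exp {X Y Y' ρ A K m r g s ε : ℝ} (hX1 : 1 ≤ X) (hg : 0 < g) (_hA : 0 ≤ A)
    (hε : 0 ≤ ε) (hs1 : s ≤ 1) (hY : 0 ≤ Y) (hρ : X ^ s ≤ ρ) (hXY : X ^ g ≤ Y')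
    (hjY : Y' ≤ X ^ ε * Y) (hRR : ρ * Y ≤ A * r) (hr : 0 ≤ r) (hm : 0 < m) (hmK : m ≤ K * X)
    (he : 3 * A * K ≤ X ^ ε) : Y' ^ (1 - (1 - s + 2 * ε) / g) ≤ r / (3 * m) := by
  have hX0 : 0 < X := by linarith
  have hY'0 : 0 < Y' := lt_of_lt_of_le (by positivity) hXY
  set d := 1 - s + 2 * ε with hd'
  have h6 : Y' ^ (1 - d / g) ≤ Y' * X ^ (-d) := by
    rw [sub_eq_add_neg, rpow_add hY'0, rpow_one, ← neg_div]
    refine mul_le_mul_of_nonneg_left ?_ hY'0.le
    refine (rpow_le_rpow_of_nonpos (by positivity) hXY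
      (div_nonpos_of_nonpos_of_nonneg (by linarith) hg.le)).trans_eq ?_
    rw [← rpow_mul hX0.le, mul_div_cancel₀ _ hg.ne']
  refine h6.trans ?_
  rw [le_div_iff₀ (by positivity)]
  have h7 : X ^ s * Y' ≤ X ^ ε * (A * r) := by
    refine (mul_le_mul_of_nonneg_left hjY (by positivity)).trans ?_
    rw [← mul_assoc, mul_comm (X ^ s), mul_assoc]
    exact mul_le_mul_of_nonneg_left
      ((mul_le_mul_of_nonneg_right hρ hY).trans hRR) (by positivity)
  have h8 : X ^ (-d) = X ^ s * (X ^ ε)⁻¹ * (X ^ ε)⁻¹ * X⁻¹ := by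
    rw [← rpow_neg hX0.le, ← rpow_neg_one X, ← rpow_add hX0, ← rpow_add hX0, ← rpow_add hX0, hd']
    congr 1; ring
  have hXe : 0 < X ^ ε := by positivity
  have hK : 0 ≤ K := nonneg_of_mul_nonneg_left (hm.le.trans hmK) hX0
  calc Y' * X ^ (-d) * (3 * m) ≤ Y' * X ^ (-d) * (3 * (K * X)) :=
        mul_le_mul_of_nonneg_left (by linarith) (by positivity)
    _ = (X ^ ε)⁻¹ * (X ^ ε)⁻¹ * (3 * K) * (X ^ s * Y') := by rw [h8]; field_simp
    _ ≤ (X ^ ε)⁻¹ * (X ^ ε)⁻¹ * (3 * K) * (X ^ ε * (A * r)) :=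
        mul_le_mul_of_nonneg_left h7 (by positivity)
    _ = (X ^ ε)⁻¹ * (3 * A * K) * r := by field_simp
    _ ≤ 1 * r := by
        refine mul_le_mul_of_nonneg_right ?_ hr
        rw [inv_mul_le_iff₀ hXe, mul_one]; exact he
    _ = r := one_mul _

variable {W : Type*} [DecidableEq W] {H : SimpleGraph W} [H.LocallyFinite]

namespace Env

variable (E : Env H)
include E

/-- There are base parameters with huge susceptibility and connection length at least its `s`-th
power. -/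
def Good (s : ℝ) : Prop :=
  ∀ T : ℝ, ∃ (q : ℝ) (R : ℕ) (l : ℝ), E.pl ≤ q ∧ q < pc H ∧ 0 < R ∧ 0 < l ∧
    Linked H q R (exp (-l)) ∧ T ≤ lchi H q ∧ l ≤ lchi H q ∧
    -log (pc H - q) ≤ lchi H q ∧ lchi H q ^ s ≤ (R : ℝ) / l

lemma base_linked : 0 < -log E.pl ∧ Linked H E.pl 1 (exp (-(-log E.pl))) := by
  have h1 : E.pl < 1 := E.pl_lt.trans E.pc_lt_one
  refine ⟨neg_pos.2 (log_neg E.pl_pos h1), ?_⟩
  rw [neg_neg, exp_log E.pl_pos]
  exact linked_one E.pl_pos.le h1.le

/-- The susceptibility eventually exceeds the logarithm of the gap. -/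
lemma rate : ∃ T₀ : ℝ, (∀ q, E.pl ≤ q → q < pc H → T₀ ≤ lchi H q → -log (pc H - q) ≤ lchi H q) ∧
    ∀ T : ℝ, ∃ q, E.pl ≤ q ∧ q < pc H ∧ T ≤ lchi H q := by
  obtain ⟨κ, A, hκ, hA, htop⟩ := E.top
  obtain ⟨hl0, hL0⟩ := E.base_linked
  set l₀ := -log E.pl
  have hev : ∀ᶠ L : ℝ in atTop, 16 * lchi H E.pl + A + 16 * l₀ ≤ L ∧
      L + A ≤ κ * (((1 : ℕ) : ℝ) / l₀ * L) ^ E.γ := by
    filter_upwards [eventually_rpow E.γ_gt (2 * l₀ ^ E.γ / κ),
      eventually_ge_atTop (16 * lchi H E.pl + A + 16 * l₀), eventually_ge_atTop A,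
      eventually_gt_atTop 0] with L h1 h2 h3 h4
    refine ⟨h2, ?_⟩
    rw [rpow_one, div_mul_eq_mul_div, div_le_iff₀ hκ] at h1
    rw [Nat.cast_one, one_div_mul_eq_div, div_rpow h4.le hl0.le, ← mul_div_assoc,
      le_div_iff₀ (rpow_pos_of_pos hl0 _)]
    have := mul_le_mul_of_nonneg_right (add_le_add_left h3 L) (rpow_nonneg hl0.le E.γ)
    linarith
  obtain ⟨L₁, hL₁⟩ := eventually_atTop.1 hev
  have key : ∀ q, E.pl ≤ q → q < pc H → L₁ ≤ -log (pc H - q) → -log (pc H - q) ≤ lchi H q := by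
    intro q hq0 hq h
    obtain ⟨h1, h2⟩ := hL₁ _ h
    have := htop E.pl q le_rfl hq0 hq 1 l₀ one_pos hl0 hL0 h1
    linarith
  refine ⟨L₁, fun q hq0 hq hT => ?_, fun T => ?_⟩
  · rcases le_or_gt L₁ (-log (pc H - q)) with h | h
    · exact key q hq0 hq h
    · linarith
  · set L := max (max T L₁) l₀ with hLdef
    have hlog : -log (pc H - (pc H - exp (-L))) = L := by rw [sub_sub_cancel, log_exp, neg_neg]
    have he : exp (-L) ≤ E.pl := by
      rw [← exp_log E.pl_pos, exp_le_exp]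
      linarith [le_max_right (max T L₁) l₀]
    have h0 : E.pl ≤ pc H - exp (-L) := by linarith [E.pl_eq]
    have h1 : pc H - exp (-L) < pc H := by linarith [exp_pos (-L)]
    refine ⟨_, h0, h1, le_trans ?_ (key _ h0 h1 ?_)⟩
    · rw [hlog]; exact (le_max_left T L₁).trans (le_max_left _ _)
    · rw [hlog]; exact (le_max_right T L₁).trans (le_max_left _ _)

/-- The start of the climb. -/
lemma good_start {ε : ℝ} (hε : 0 < ε) : E.Good (-ε) := by
  intro T
  obtain ⟨T₀, hrate, hunb⟩ := E.rate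
  obtain ⟨hl0, hL0⟩ := E.base_linked
  set l₀ := -log E.pl
  obtain ⟨M, hM⟩ := eventually_atTop.1 ((eventually_rpow (neg_neg_of_pos hε) l₀).and
    ((eventually_ge_atTop T).and ((eventually_ge_atTop T₀).and (eventually_ge_atTop l₀))))
  obtain ⟨q, hq0, hq, hX⟩ := hunb M
  obtain ⟨h1, h2, h3, h4⟩ := hM _ hX
  refine ⟨q, 1, l₀, hq0, hq, one_pos, hl0,
    hL0.mono_param E.pl_pos.le hq0 (E.q_le_one hq), h2, h4, hrate q hq0 hq h3, ?_⟩
  rw [rpow_zero] at h1
  rw [Nat.cast_one, le_div_iff₀ hl0, mul_comm]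
  exact h1

/-- The parameters next to the threshold used in a step of the climb. -/
lemma rung {X C : ℝ} {q : ℝ} (hq0 : E.pl ≤ q) (hq : q < pc H) (hXq : -log (pc H - q) ≤ X)
    (hC : X ≤ C) (j : ℕ) :
    E.pl ≤ pc H - exp (-(C + j)) ∧ q ≤ pc H - exp (-(C + j)) ∧ pc H - exp (-(C + j)) < pc H ∧
      pc H - exp (-(C + j)) < pc H - exp (-(C + (j + 1 : ℕ))) ∧
      -log (pc H - (pc H - exp (-(C + j)))) = C + j ∧
      -log ((pc H - exp (-(C + (j + 1 : ℕ)))) - (pc H - exp (-(C + j)))) ≤ C + j + 1 := by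
  have hqb : q ≤ pc H - exp (-(C + j)) := by
    have : exp (-(C + j)) ≤ pc H - q := by
      rw [← exp_log (sub_pos.2 hq), exp_le_exp]
      have : (0 : ℝ) ≤ j := Nat.cast_nonneg j
      linarith
    linarith
  refine ⟨hq0.trans hqb, hqb, by linarith [exp_pos (-(C + j))], ?_, ?_, ?_⟩
  · have : exp (-(C + (j + 1 : ℕ))) < exp (-(C + j)) := exp_lt_exp.2 (by push_cast; linarith)
    linarith
  · rw [sub_sub_cancel, log_exp, neg_neg]
  · have h1 : exp (-(C + (j + 1 : ℕ))) = exp (-(C + j)) * exp (-1) := by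
      rw [← exp_add]; push_cast; congr 1; ring
    have h2 : exp (-(1 : ℝ)) ≤ 1 / 2 := by
      rw [exp_neg, one_div]
      exact inv_anti₀ two_pos (by linarith [add_one_le_exp (1 : ℝ)])
    have h3 : exp (-(C + j + 1)) ≤
        (pc H - exp (-(C + (j + 1 : ℕ)))) - (pc H - exp (-(C + j))) := by
      have h4 := mul_le_mul_of_nonneg_left h2 (exp_pos (-(C + j))).le
      have h5 : exp (-(C + j + 1)) = exp (-(C + j)) * exp (-1) := by
        rw [← exp_add]; congr 1; ring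
      linarith
    have := log_le_log (exp_pos _) h3
    rw [log_exp] at this
    linarith

/-- One step of the climb. -/
theorem climb {ε s : ℝ} (hε : 0 < ε) (hg : 1 < E.γ * (1 - ε) - ε) (hs0 : -ε ≤ s) (hs1 : s ≤ 1)
    (hs : E.Good s) : E.Good (1 - (1 - s + 2 * ε) / (E.γ * (1 - ε) - ε)) := by
  obtain ⟨T₀, hrate, -⟩ := E.rate
  obtain ⟨κ, At, hκ, hAt, htop⟩ := E.top
  obtain ⟨Ab, hAb, hblow⟩ := E.blow
  obtain ⟨As, hAs, hstep⟩ := E.step
  have hγ := E.γ_gt
  set g := E.γ * (1 - ε) - ε with hgdef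
  set β := (E.γ * (1 + ε) + 1) / (E.γ - 1) with hβ
  set N := ⌊β / ε⌋₊ + 1 with hN
  have hNβ : β < N * ε := by
    rw [← div_lt_iff₀ hε, hN]; push_cast; exact Nat.lt_floor_add_one _
  set C₅ := 32 + At with hC₅
  set K := C₅ + N + 2 + As with hK
  have hKC : C₅ + N + 2 ≤ K := by linarith
  intro T
  obtain ⟨M, hM⟩ := eventually_atTop.1 (((eventually_rpow (lt_add_of_pos_right g hε) (2 / κ)).and
    ((eventually_rpow hg (32 + Ab * K + As * K + 3 * K + At)).and
    ((eventually_rpow (lt_add_one (E.γ * (1 + ε))) (Ab * K ^ E.γ)).and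
    (eventually_rpow hε (3 * As * K))))).and
    ((eventually_ge_atTop T).and ((eventually_ge_atTop T₀).and (eventually_ge_atTop 2))))
  obtain ⟨q, R, l, hq0, hq, hR, hl, hL, hMX, hlX, hrateq, hρ⟩ := hs M
  obtain ⟨⟨hb, hc, hd, he⟩, hT, hT₀, hX2⟩ := hM _ hMX
  set X := lchi H q with hX
  set ρ := (R : ℝ) / l with hρdef
  rw [rpow_one] at hc
  rw [rpow_zero, mul_one] at he
  have hX0 : 0 < X := by linarith
  have hX1 : 1 ≤ X := by linarith
  have hKX : ∀ j : ℕ, j ≤ N → C₅ * X + j + As + 1 ≤ K * X := by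
    intro j hj
    have h1 : (j : ℝ) ≤ N := by exact_mod_cast hj
    have h2 : (N + 2 + As : ℝ) * 1 ≤ (N + 2 + As) * X :=
      mul_le_mul_of_nonneg_left hX1 (by positivity)
    rw [hK]; linarith
  have hKX0 : 0 ≤ K * X := by positivity
  have hC5X : 32 * X + At ≤ C₅ * X := by
    have : At * 1 ≤ At * X := mul_le_mul_of_nonneg_left hX1 (by linarith)
    rw [hC₅]; linarith
  have hrung := fun j => E.rung hq0 hq hrateq (show X ≤ C₅ * X by linarith) j
  set bj : ℕ → ℝ := fun j => pc H - exp (-(C₅ * X + j)) with hbj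
  -- next to the threshold the susceptibility is already a high power of `X`
  have hY0 : X ^ g ≤ lchi H (bj 0) := by
    obtain ⟨-, h2, h3, -, h5, -⟩ := hrung 0
    have h := htop q (bj 0) hq0 h2 h3 R l hR hl hL (by
      simp only [bj]; rw [h5]; push_cast; linarith)
    simp only [bj] at h
    rw [h5, Nat.cast_zero, add_zero] at h
    refine climb_top (C := C₅) (γ := E.γ) hX1 hκ (by linarith) (by positivity) (by linarith) hρ ?_ ?_ hb
      (by simpa only [bj, Nat.cast_zero, add_zero] using h)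
    · have := mul_le_mul_of_nonneg_left hs0 (by linarith : 0 ≤ E.γ)
      linarith
    · have h9 : 0 ≤ Ab * K + As * K + 3 * K := by positivity
      refine le_trans ?_ hc
      calc At = At * 1 := (mul_one _).symm
        _ ≤ _ := mul_le_mul (by linarith) hX1 zero_le_one (by linarith)
  have hbig : (32 + Ab * K + As * K + 3 * K) * X ≤ X ^ g :=
    le_trans (mul_le_mul_of_nonneg_right (by linarith) hX0.le) hc
  have hge : ∀ j, X ^ g ≤ lchi H (bj j) := fun j => by
    refine hY0.trans (E.lchi_mono (hrung 0).1 ?_ (hrung j).2.2.1)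
    have : exp (-(C₅ * X + j)) ≤ exp (-(C₅ * X + (0 : ℕ))) := exp_le_exp.2 (by
      have : (0 : ℝ) ≤ j := Nat.cast_nonneg j
      push_cast; linarith)
    simp only [bj]; linarith
  have hAbK : 0 ≤ Ab * K * X := by positivity
  have hAsK : 0 ≤ As * K * X := by positivity
  have hle : ∀ j, j ≤ N → lchi H (bj j) ≤ X ^ β := by
    intro j hj
    obtain ⟨-, h2, h3, -, h5, -⟩ := hrung j
    have hL1 : 1 - log (pc H - bj j) ≤ K * X := by
      simp only [bj]; have := hKX j hj; linarith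
    have h6 := hblow q (bj j) hq0 h2 h3 R l hR hl hL (by
      have := mul_le_mul_of_nonneg_left hL1 (by linarith : 0 ≤ Ab)
      linarith [hge j])
    refine climb_cap hX1 (E.lchi_nonneg (hrung j).1 h3) hγ (by linarith) (by positivity) hs0 hρ
      ?_ hL1 h6 hd
    simp only [bj]
    have : 0 ≤ C₅ * X + (j : ℝ) := by positivity
    linarith
  have hpig := pigeon (show 1 < X by linarith) hNβ (fun j => lchi H (bj j))
    ((one_le_rpow hX1 (by linarith)).trans hY0) (hle N le_rfl)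
  obtain ⟨j, hjN, hjY⟩ := hpig
  obtain ⟨-, h2, -, h4, -, h5⟩ := hrung j
  set m := As + (C₅ * X + j + 1) with hm
  have hmK : m ≤ K * X := by have := hKX j hjN.le; linarith
  have hm0 : 0 < m := by positivity
  obtain ⟨R', hR', hL', hRR⟩ := hstep q (bj j) (bj (j + 1)) hq0 h2 h4 (hrung (j + 1)).2.2.1 R l m
    hR hl hL (by simp only [bj]; linarith) (by
      have := mul_le_mul_of_nonneg_left hmK (by linarith : 0 ≤ As)
      linarith [hge j])
  set Y' := lchi H (bj (j + 1)) with hY'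
  have hXY : X ^ g ≤ Y' := hge (j + 1)
  have hXX : X ≤ X ^ g := by
    calc X = X ^ (1 : ℝ) := (rpow_one X).symm
      _ ≤ _ := rpow_le_rpow_of_exponent_le hX1 hg.le
  have hY'0 : 0 < Y' := lt_of_lt_of_le (by positivity) hXY
  refine ⟨bj (j + 1), R', 3 * m, (hrung (j + 1)).1, (hrung (j + 1)).2.2.1, hR', by positivity, hL',
    ?_, ?_, hrate _ (hrung (j + 1)).1 (hrung (j + 1)).2.2.1 ?_, ?_⟩
  · linarith
  · linarith
  · linarith
  exact climb_exp hX1 (by linarith) (by linarith) hε.le hs1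
    (E.lchi_nonneg (hrung j).1 (hrung j).2.2.1) hρ hXY hjY hRR (Nat.cast_nonneg _) hm0 hmK he

/-- A good exponent above `(2 - γ) / γ` is impossible. -/
theorem not_good {s : ℝ} (h : 2 - E.γ < s * E.γ) : ¬ E.Good s := by
  intro hgood
  obtain ⟨κ, At, hκ, hAt, htop⟩ := E.top
  obtain ⟨Ab, hAb, hblow⟩ := E.blow
  have hγ := E.γ_gt
  set e := (s + 1) * E.γ with he
  have he0 : 1 < e := by linarith
  have he1 : E.γ < s * E.γ + e * (E.γ - 1) := by
    have := mul_lt_mul_of_pos_left h (by linarith : 0 < E.γ)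
    nlinarith
  set C₅ := 32 + At with hC₅
  obtain ⟨M, hM⟩ := eventually_atTop.1 (((eventually_rpow he0
    (2 * (32 + Ab * (C₅ + 1) + At) / κ)).and
    (eventually_rpow he1 (2 * (Ab * (C₅ + 1) ^ E.γ) / (κ / 2) ^ (E.γ - 1)))).and
    (eventually_ge_atTop 1))
  obtain ⟨q, R, l, hq0, hq, hR, hl, hL, hMX, hlX, hrateq, hρ⟩ := hgood M
  obtain ⟨⟨ha, hb⟩, hX1⟩ := hM _ hMX
  set X := lchi H q with hX
  set ρ := (R : ℝ) / l with hρdef
  have hX0 : 0 < X := by linarith
  have hC5X : 32 * X + At ≤ C₅ * X := by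
    have : At * 1 ≤ At * X := mul_le_mul_of_nonneg_left hX1 (by linarith)
    rw [hC₅]; linarith
  obtain ⟨hb0, hqb, hbpc, -, hlog, -⟩ := E.rung hq0 hq hrateq (show X ≤ C₅ * X by linarith) 0
  set b := pc H - exp (-(C₅ * X + (0 : ℕ))) with hbdef
  rw [Nat.cast_zero, add_zero] at hlog
  have h1 := htop q b hq0 hqb hbpc R l hR hl hL (by rw [hlog]; linarith)
  rw [hlog] at h1
  have h2 : X ^ e ≤ (ρ * (C₅ * X)) ^ E.γ := by
    rw [he, rpow_mul hX0.le]
    refine rpow_le_rpow (by positivity) ?_ (by linarith)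
    rw [rpow_add_one hX0.ne']
    exact mul_le_mul hρ (le_mul_of_one_le_left hX0.le (by linarith)) hX0.le (by positivity)
  rw [rpow_one, div_mul_eq_mul_div, div_le_iff₀ hκ] at ha
  have h3 : 2 * (32 * X + Ab * (C₅ + 1) * X) + 2 * At ≤ X ^ e * κ := by
    refine le_trans ?_ ha
    have : At * 1 ≤ At * X := mul_le_mul_of_nonneg_left hX1 (by linarith)
    linarith
  have h4 : κ / 2 * X ^ e ≤ lchi H b := by
    have := mul_le_mul_of_nonneg_left h2 hκ.le
    have h32 : 0 ≤ 32 * X + Ab * (C₅ + 1) * X := by positivity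
    linarith
  have hL1 : 1 - log (pc H - b) ≤ (C₅ + 1) * X := by linarith
  have hL0 : 0 ≤ 1 - log (pc H - b) := by linarith
  have h5 := hblow q b hq0 hqb hbpc R l hR hl hL (by
    have := mul_le_mul_of_nonneg_left hL1 (by linarith : 0 ≤ Ab)
    linarith)
  have h6 : X ^ (s * E.γ) * ((κ / 2) ^ (E.γ - 1) * X ^ (e * (E.γ - 1))) ≤
      Ab * ((C₅ + 1) ^ E.γ * X ^ E.γ) := by
    rw [rpow_mul hX0.le, rpow_mul hX0.le, ← mul_rpow (by positivity) (by positivity),
      ← mul_rpow (by positivity) hX0.le]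
    refine le_trans (mul_le_mul (rpow_le_rpow (by positivity) hρ (by linarith))
      (rpow_le_rpow (by positivity) h4 (by linarith)) (by positivity) (by positivity))
      (h5.trans (mul_le_mul_of_nonneg_left (rpow_le_rpow hL0 hL1 (by linarith)) (by linarith)))
  rw [rpow_add hX0, div_mul_eq_mul_div, div_le_iff₀ (rpow_pos_of_pos (by positivity) _)] at hb
  have : 0 < Ab * (C₅ + 1) ^ E.γ * X ^ E.γ := by positivity
  linarith

/-- No such environment exists. -/
theorem false_of_env : False := by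
  have hγ := E.γ_gt
  set ε := (E.γ - 1) ^ 2 / (8 * E.γ ^ 2) with hεdef
  have hε : 0 < ε := div_pos (pow_pos (by linarith) 2) (by positivity)
  have h8 : 8 * E.γ ^ 2 * ε = (E.γ - 1) ^ 2 := mul_div_cancel₀ _ (by positivity)
  have hε1 : 8 * E.γ * ε ≤ E.γ - 1 := by nlinarith
  set g := E.γ * (1 - ε) - ε with hg
  have hg1 : (3 / 4) * (E.γ - 1) ≤ g - 1 := by
    have : ε * 1 ≤ ε * E.γ := mul_le_mul_of_nonneg_left hγ.le hε.le
    rw [hg]; linarith
  have hg0 : 1 < g := by linarith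
  set ds := 2 * ε / (g - 1) with hds
  have hds0 : 0 < ds := div_pos (by linarith) (by linarith)
  have hdsg : ds * (g - 1) = 2 * ε := div_mul_cancel₀ _ (by linarith)
  have hdsγ : ds * E.γ < E.γ - 1 := by
    have h1 : ds * (3 / 4 * (E.γ - 1)) ≤ 2 * ε :=
      (mul_le_mul_of_nonneg_left hg1 hds0.le).trans_eq hdsg
    have h2 : (ds * E.γ) * (3 * (E.γ - 1)) ≤ (E.γ - 1) * (E.γ - 1) := by nlinarith
    have h3 : ds * E.γ * 3 ≤ E.γ - 1 := le_of_mul_le_mul_right (by linarith) (sub_pos.2 hγ)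
    have h4 : 0 < ds * E.γ := mul_pos hds0 (by linarith)
    linarith
  have hds1 : ds ≤ 1 + ε := by
    have : ds * 1 ≤ ds * E.γ := mul_le_mul_of_nonneg_left hγ.le hds0.le
    have h5 : ds * E.γ < 1 * E.γ := by linarith
    have := lt_of_mul_lt_mul_right h5 (by linarith)
    linarith
  set d : ℕ → ℝ := fun n => ds + (1 + ε - ds) / g ^ n with hdef
  have hd1 : ∀ n, d n ≤ 1 + ε := fun n => by
    have : (1 + ε - ds) / g ^ n ≤ 1 + ε - ds := div_le_self (by linarith) (one_le_pow₀ hg0.le)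
    simp only [d]; linarith
  have hd0 : ∀ n, ds ≤ d n := fun n => by
    have : 0 ≤ (1 + ε - ds) / g ^ n := div_nonneg (by linarith) (by positivity)
    simp only [d]; linarith
  have hgood : ∀ n, E.Good (1 - d n) := by
    intro n
    induction n with
    | zero =>
      have : 1 - d 0 = -ε := by simp only [d, pow_zero, div_one]; ring
      rw [this]; exact E.good_start hε
    | succ n ih =>
      have h := E.climb hε (by rw [← hg]; exact hg0) (by linarith [hd1 n]) (by linarith [hd0 n]) ih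
      rw [← hg] at h
      have : d (n + 1) = (1 - (1 - d n) + 2 * ε) / g := by
        rw [eq_div_iff (by linarith)]
        have h7 : (1 + ε - ds) / g ^ (n + 1) * g = (1 + ε - ds) / g ^ n := by
          rw [pow_succ]; field_simp
        simp only [d]; linarith
      rwa [this]
  obtain ⟨n, hn⟩ := pow_unbounded_of_one_lt (E.γ * (1 + ε) / (E.γ - 1)) hg0
  refine E.not_good ?_ (hgood n)
  have h1 : (1 + ε - ds) / g ^ n * E.γ ≤ E.γ - 1 := by
    rw [div_mul_eq_mul_div, div_le_iff₀ (by positivity)]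
    rw [div_lt_iff₀ (by linarith)] at hn
    have : 0 ≤ ds * E.γ := by positivity
    linarith
  simp only [d]
  linarith

end Env

end Vale.Agent.P151.Growth
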