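import Vale.Agent.P151.Growth.Climb

/-!
From a positive percolation probability at the threshold and the growth of balls to the data of the
climb.
-/

open Finset MeasureTheory ProbabilityTheory Real
open scoped unitInterval

namespace Vale.Agent.P151.Growth

open Vale.Agent.P165

variable {W : Type*} [DecidableEq W] {H : SimpleGraph W} [H.LocallyFinite]

omit [H.LocallyFinite] in
lemma bigP_zero (x : W) : bigP H 0 x 2 = 0 := by
  classical
  refine le_antisymm (supPr_le le_rfl zero_le_one fun U _ => ?_)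
    (supPr_nonneg le_rfl zero_le_one)
  refine le_of_eq (Finset.sum_eq_zero fun S hS => ?_)
  obtain ⟨-, Y, hY, h2⟩ := mem_filter.1 hS
  have hS0 : S.card ≠ 0 := by
    intro h
    rw [card_eq_zero] at h
    subst h
    have hsub : Y ⊆ {x} := fun y hy => mem_singleton.2
      (Set.mem_singleton_iff.1 (cl_subset (Z := ({x} : Set W)) subset_rfl
        (fun a b _ hab => absurd hab (notMem_empty _)) (hY hy)))
    have := card_le_card hsub
    simp at this
    omega
  rw [wt, zero_pow hS0, zero_mul]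

omit [DecidableEq W] [H.LocallyFinite] in
lemma pc_nonneg : 0 ≤ pc H := Real.sInf_nonneg fun _ ⟨p, hp, _⟩ => hp ▸ p.2.1

lemma big_at_pc [Countable W] (hH : H.Connected) (hQT : QuasiTransitive H) (p : I)
    (hp : (p : ℝ) = pc H) (o : W) (h : 0 < (bondMeasure H p).real (infAt H o)) :
    0 < pc H ∧ ∃ θ : ℝ, 0 < θ ∧ ∀ x n, θ ≤ bigP H (pc H) x n := by
  have hb : ∀ n, (bondMeasure H p).real (infAt H o) ≤ bigP H (pc H) o n := fun n =>
    hp ▸ infAt_le_bigP p o n
  have hpos : 0 < pc H := by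
    refine lt_of_le_of_ne pc_nonneg fun h0 => ?_
    have := hb 2
    rw [← h0, bigP_zero] at this
    linarith
  refine ⟨hpos, ?_⟩
  have h1 : pc H ≤ 1 := hp ▸ p.2.2
  obtain ⟨K, hK⟩ := exists_near hH hQT
  refine ⟨pc H ^ K * (bondMeasure H p).real (infAt H o), by positivity, fun x n => ?_⟩
  obtain ⟨φ, hφ⟩ := hK x o
  have hL := Linked.chain hpos.le h1 (linked_one (H := H) hpos.le h1) hpos.le K x (φ o)
    (by rwa [Nat.mul_one])
  refine le_trans (mul_le_mul hL ((hb n).trans_eq (bigP_iso hpos.le h1 φ o n).symm) measureReal_nonneg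
    (tau_nonneg hpos.le h1 _ _)) (bigP_transfer hpos.le h1 x (φ o) n)

omit [H.LocallyFinite] in
/-- Large clusters slightly below the threshold. -/
lemma big_below {θ : ℝ} (hθ : 0 ≤ θ) (hpos : 0 < pc H) (h1 : pc H ≤ 1)
    (hb : ∀ x n, θ ≤ bigP H (pc H) x n) (q : ℝ) (x : W) (n : ℕ) (hq0 : pc H / 2 ≤ q)
    (hq : q < pc H) (hn : (pc H - q) * n ≤ pc H / 2) : θ / 2 ≤ bigP H q x n := by
  have hr0 : 0 ≤ q / pc H := div_nonneg (by linarith) hpos.le
  have hr1 : q / pc H ≤ 1 := (div_le_one hpos).2 hq.le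
  have h := bigP_thin (H := H) hpos.le h1 hr0 hr1 x n
  rw [mul_div_cancel₀ _ hpos.ne'] at h
  refine le_trans ?_ h
  have hpow : (1 / 2 : ℝ) ≤ (q / pc H) ^ n := by
    have h2 := one_add_mul_le_pow (a := q / pc H - 1) (by linarith) n
    rw [add_sub_cancel] at h2
    refine le_trans ?_ h2
    have h3 : (n : ℝ) * (q / pc H - 1) = -((pc H - q) * n / pc H) := by field_simp; ring
    have h4 : (pc H - q) * n / pc H ≤ 1 / 2 := by rw [div_le_iff₀ hpos]; linarith
    linarith
  calc θ / 2 = 1 / 2 * θ := by ring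
    _ ≤ _ := mul_le_mul hpow (hb x n) hθ (by positivity)

/-- An eventual lower bound on the volume of balls holds at all radii with a smaller constant. -/
lemma growth_all {o : W} {a c : ℝ} (ha : 0 < a) (hc : 0 < c)
    (h : ∀ᶠ r : ℕ in Filter.atTop, exp (c * (r : ℝ) ^ a) ≤ ((ball H o r).card : ℝ)) :
    ∃ c' : ℝ, 0 < c' ∧ ∀ r : ℕ, exp (c' * (r : ℝ) ^ a) ≤ ((ball H o r).card : ℝ) := by
  obtain ⟨r₀, hr₀⟩ := Filter.eventually_atTop.1 h
  have hone : ∀ r, 1 ≤ r → 2 ≤ (ball H o r).card := by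
    intro r hr
    refine le_trans ?_ (card_le_card (ball_mono o hr))
    by_contra hlt
    push Not at hlt
    have hone : ball H o 1 ⊆ {o} := fun v hv =>
      mem_singleton.2 (card_le_one.1 (Nat.lt_succ_iff.1 hlt) v hv o (self_mem_ball o 1))
    have hall : ∀ k, ball H o k ⊆ {o} := by
      intro k
      induction k with
      | zero => simp [ball]
      | succ k ih =>
        intro v hv
        rcases mem_ball_succ.1 hv with h | ⟨w, hw, hwv⟩
        · exact ih h
        · obtain rfl := mem_singleton.1 (ih hw)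
          exact hone (mem_ball_succ.2 (Or.inr ⟨_, by simp [ball], hwv⟩))
    have h1 := hr₀ (r₀ + 1) (by omega)
    have h2 : ((ball H o (r₀ + 1)).card : ℝ) ≤ 1 := by
      exact_mod_cast (card_le_card (hall (r₀ + 1))).trans_eq (card_singleton o)
    have h3 : 0 < c * ((r₀ + 1 : ℕ) : ℝ) ^ a := by positivity
    linarith [add_one_lt_exp h3.ne']
  set r₁ : ℝ := ((r₀ + 1 : ℕ) : ℝ) ^ a with hr₁
  have hr₁0 : 0 < r₁ := by positivity
  have hl2 : 0 < Real.log 2 := Real.log_pos one_lt_two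
  refine ⟨min c (Real.log 2 / r₁), lt_min hc (div_pos hl2 hr₁0), fun r => ?_⟩
  rcases le_or_gt r₀ r with hr | hr
  · refine le_trans ?_ (hr₀ r hr)
    exact exp_le_exp.2 (mul_le_mul_of_nonneg_right (min_le_left _ _) (by positivity))
  rcases Nat.eq_zero_or_pos r with rfl | hr1
  · rw [Nat.cast_zero, zero_rpow ha.ne', mul_zero, exp_zero]
    exact_mod_cast card_pos.2 ⟨o, self_mem_ball o 0⟩
  calc exp (min c (Real.log 2 / r₁) * (r : ℝ) ^ a) ≤ exp (Real.log 2 / r₁ * r₁) := by
        refine exp_le_exp.2 (mul_le_mul (min_le_right _ _) ?_ (by positivity) (by positivity))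
        exact rpow_le_rpow (Nat.cast_nonneg r) (by exact_mod_cast (by omega : r ≤ r₀ + 1)) ha.le
    _ = 2 := by rw [div_mul_cancel₀ _ hr₁0.ne', exp_log two_pos]
    _ ≤ _ := by exact_mod_cast hone r hr1

/-- The growth of balls bounds the connection length by the susceptibility. -/
lemma grow_of_balls (hH : H.Connected) (hQT : QuasiTransitive H) {o : W} {a c : ℝ}
    (ha0 : 0 < a) (ha1 : a < 1) (hc : 0 < c)
    (h : ∀ r : ℕ, exp (c * (r : ℝ) ^ a) ≤ ((ball H o r).card : ℝ)) {q : ℝ} (hq0 : 0 ≤ q)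
    (hq : q < pc H) (hq1 : q ≤ 1) {R : ℕ} {l : ℝ} (hR : 0 < R) (hl : 0 < l)
    (hL : Linked H q R (exp (-l))) :
    (c / 2) ^ (1 / (1 - a)) * ((R : ℝ) / l) ^ (a / (1 - a)) ≤ lchi H q + l := by
  have ha' : 0 < 1 - a := by linarith
  have hRa : 0 < (R : ℝ) ^ a := rpow_pos_of_pos (Nat.cast_pos.2 hR) a
  set kr := (c * (R : ℝ) ^ a / (2 * l)) ^ (1 / (1 - a)) with hkr
  have hkr0 : 0 ≤ kr := by positivity
  -- the best number of steps
  have hk : ∀ k : ℕ, (k : ℝ) ≤ kr → (k : ℝ) * l ≤ lchi H q := by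
    intro k hk
    have hball := h (k * R)
    have hsum : exp (-l) ^ k * ((ball H o (k * R)).card : ℝ) ≤ chiStar H q := by
      refine le_trans ?_ (sum_tau_le_chiStar hH hQT hq0 hq hq1 o (ball H o (k * R)))
      rw [mul_comm, ← nsmul_eq_mul]
      exact card_nsmul_le_sum _ _ _ fun z hz => Linked.chain hq0 hq1 hL (exp_pos _).le k o z hz
    have h1 := le_trans (mul_le_mul_of_nonneg_left hball (by positivity)) hsum
    rw [← exp_nat_mul, ← exp_add] at h1
    have h2 := Real.log_le_log (exp_pos _) h1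
    rw [log_exp] at h2
    rcases Nat.eq_zero_or_pos k with rfl | hk0
    · simp only [Nat.cast_zero, zero_mul, zero_rpow ha0.ne', mul_zero,
        add_zero] at h2 ⊢
      exact h2
    have h3 : (k : ℝ) ^ (1 - a) ≤ c * (R : ℝ) ^ a / (2 * l) := by
      refine (rpow_le_rpow (Nat.cast_nonneg k) hk ha'.le).trans_eq ?_
      rw [hkr, ← rpow_mul (by positivity), one_div_mul_cancel ha'.ne', rpow_one]
    rw [le_div_iff₀ (by positivity)] at h3
    have h4 : (k : ℝ) = (k : ℝ) ^ (1 - a) * (k : ℝ) ^ a := by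
      rw [← rpow_add (Nat.cast_pos.2 hk0), sub_add_cancel, rpow_one]
    have h5 : (k : ℝ) * (2 * l) ≤ c * (((k * R : ℕ) : ℝ)) ^ a := by
      rw [Nat.cast_mul, mul_rpow (Nat.cast_nonneg _) (Nat.cast_nonneg _)]
      calc (k : ℝ) * (2 * l) = (k : ℝ) ^ (1 - a) * (2 * l) * (k : ℝ) ^ a := by
            conv_lhs => rw [h4]
            ring
        _ ≤ c * (R : ℝ) ^ a * (k : ℝ) ^ a := mul_le_mul_of_nonneg_right h3 (by positivity)
        _ = _ := by ring
    unfold lchi
    linarith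
  have hfl := hk ⌊kr⌋₊ (Nat.floor_le hkr0)
  have hkl : kr * l ≤ lchi H q + l := by
    have := mul_le_mul_of_nonneg_right (Nat.lt_floor_add_one kr).le hl.le
    linarith
  refine le_trans (le_of_eq ?_) hkl
  have e1 : c * (R : ℝ) ^ a / (2 * l) = c / 2 * (R : ℝ) ^ a / l := by ring
  have e2 : 1 / (1 - a) = a / (1 - a) + 1 := by rw [div_add_one ha'.ne']; ring
  have e3 : a * (1 / (1 - a)) = a / (1 - a) := by ring
  rw [hkr, e1, div_rpow (Nat.cast_nonneg R) hl.le,
    div_rpow (show 0 ≤ c / 2 * (R : ℝ) ^ a by positivity) hl.le,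
    mul_rpow (show 0 ≤ c / 2 by positivity) hRa.le, ← rpow_mul (Nat.cast_nonneg R), e3, e2,
    rpow_add_one hl.ne']
  field_simp

/-- The theorem, given the sprinkling bound. -/
theorem no_percolation_of_sprinkle (hH : H.Connected) (hQT : QuasiTransitive H)
    (hpc1 : pc H < 1) (hA : ¬ Nonamenable H) {o : W} {a c : ℝ} (ha : 1 / 2 < a) (hc : 0 < c)
    (hgrow : ∀ᶠ r : ℕ in Filter.atTop, exp (c * (r : ℝ) ^ a) ≤ ((ball H o r).card : ℝ))
    (hspr : ∀ pl : ℝ, 0 < pl → ∃ c' : ℝ, 0 < c' ∧ ∀ p q : ℝ, pl ≤ p → p < q → q < pc H →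
      ∀ (n : ℕ) (x : W), (n : ℝ) ≤ c' * (q - p) * chiStar H p → c' * (q - p) ≤ bigP H q x n)
    (p : I) (hp : (p : ℝ) = pc H) (x : W) : bondMeasure H p (infAt H x) = 0 := by
  haveI := countable_of_connected hH
  haveI : IsProbabilityMeasure (bondMeasure H p) := by unfold bondMeasure; infer_instance
  by_contra hne
  obtain ⟨hpos, θ, hθ, hb⟩ := big_at_pc hH hQT p hp x
    (ENNReal.toReal_pos hne (measure_ne_top _ _))
  set b := min a (3 / 4) with hb'
  have hb0 : 1 / 2 < b := lt_min ha (by norm_num)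
  have hb1 : b < 1 := lt_of_le_of_lt (min_le_right _ _) (by norm_num)
  obtain ⟨c₁, hc₁, hall⟩ := growth_all (H := H) (o := o) (show 0 < b by linarith) hc (by
    filter_upwards [hgrow, Filter.eventually_ge_atTop 1] with r hr hr1
    refine le_trans (exp_le_exp.2 (mul_le_mul_of_nonneg_left ?_ hc.le)) hr
    exact rpow_le_rpow_of_exponent_le (by exact_mod_cast hr1) (min_le_left _ _))
  obtain ⟨c', hc', hs⟩ := hspr (pc H / 2) (by linarith)
  obtain ⟨C, hC, hu⟩ := boost hH hQT hA (show 0 < pc H / 2 by linarith)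
  exact Env.false_of_env
    { pl := pc H / 2, θ := θ / 2, c := c', C := C, γ := b / (1 - b),
      cg := (c₁ / 2) ^ (1 / (1 - b)),
      connected := hH, qt := hQT, pl_pos := by linarith, pl_lt := by linarith,
      pl_eq := by ring, pc_lt_one := hpc1, θ_pos := by linarith, c_pos := hc', C_nonneg := hC,
      γ_gt := by rw [lt_div_iff₀ (by linarith)]; linarith,
      cg_pos := rpow_pos_of_pos (by linarith) _,
      big := fun q x n h1 h2 h3 => big_below hθ.le hpos hpc1.le hb q x n h1 h2 h3,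
      spr := hs, uniq := hu,
      grow := fun q R l h1 h2 hR hl hL => grow_of_balls hH hQT (by linarith) hb1 hc₁ hall
        (by linarith) h2 (h2.trans hpc1).le hR hl hL }

end Vale.Agent.P151.Growth
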