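import Vale.Agent.P151.FiniteBasic
import Vale.Agent.P165.SharpCor
import Vale.Agent.P165.BKInf

/-!
Critical percolation on graphs of fast subexponential growth: the finite-volume quantities.

Every probability is the probability of an increasing event of a finite edge set, maximised over
the finite edge sets of the graph.
-/

open Finset

namespace Vale.Agent.P151.Growth

open Vale.Agent.P165

variable {W : Type*} [DecidableEq W]

/-- Finite sets of edges of `H`. -/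
def EdgeSets (H : SimpleGraph W) : Type _ := {U : Finset (Sym2 W) // ↑U ⊆ H.edgeSet}

/-- The supremum over finite edge sets of the probability of an increasing event. -/
noncomputable def supPr (H : SimpleGraph W) (p : ℝ) (Q : Finset (Sym2 W) → Prop) : ℝ :=
  ⨆ U : EdgeSets H, pr p U.1 Q

/-- The two-point function. -/
noncomputable def tau (H : SimpleGraph W) (p : ℝ) (x y : W) : ℝ := supPr H p (conn x y)

/-- The cluster of `x` has at least `n` vertices. -/
def Big (x : W) (n : ℕ) (S : Finset (Sym2 W)) : Prop :=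
  ∃ Y : Finset W, ↑Y ⊆ cl {x} S ∧ n ≤ Y.card

/-- The probability that the cluster of `x` has at least `n` vertices. -/
noncomputable def bigP (H : SimpleGraph W) (p : ℝ) (x : W) (n : ℕ) : ℝ := supPr H p (Big x n)

/-- `c` and `z` lie in two different clusters, each of at least `n` vertices. -/
def Two (c z : W) (n : ℕ) (S : Finset (Sym2 W)) : Prop :=
  Big c n S ∧ Big z n S ∧ ¬ conn c z S

/-- The susceptibility at its worst vertex. -/
noncomputable def chiStar (H : SimpleGraph W) (p : ℝ) : ℝ :=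
  ⨆ a : W × Finset W, ∑ z ∈ a.2, tau H p a.1 z

/-- Any two vertices at distance at most `R` are connected with probability at least `η`. -/
def Linked (H : SimpleGraph W) [H.LocallyFinite] (p : ℝ) (R : ℕ) (η : ℝ) : Prop :=
  ∀ x y, y ∈ ball H x R → η ≤ tau H p x y

lemma incr_big (x : W) (n : ℕ) : Incr (Big x n) :=
  fun _ _ h ⟨Y, hY, hn⟩ => ⟨Y, hY.trans (cl_mono subset_rfl h), hn⟩

variable {H : SimpleGraph W}

instance : Nonempty (EdgeSets H) := ⟨⟨∅, by simp⟩⟩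

section supPr

variable {p : ℝ} (h0 : 0 ≤ p) (h1 : p ≤ 1) {Q : Finset (Sym2 W) → Prop}

include h0 h1

lemma bddAbove_supPr : BddAbove (Set.range fun U : EdgeSets H => pr p U.1 Q) :=
  ⟨1, by rintro _ ⟨U, rfl⟩; exact pr_le_one h0 h1 _ _⟩

lemma pr_le_supPr {U : Finset (Sym2 W)} (hU : ↑U ⊆ H.edgeSet) : pr p U Q ≤ supPr H p Q :=
  le_ciSup (bddAbove_supPr h0 h1) (⟨U, hU⟩ : EdgeSets H)

lemma supPr_le {c : ℝ} (h : ∀ U : Finset (Sym2 W), ↑U ⊆ H.edgeSet → pr p U Q ≤ c) :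
    supPr H p Q ≤ c :=
  ciSup_le fun U => h U.1 U.2

lemma supPr_nonneg : 0 ≤ supPr H p Q :=
  (pr_nonneg h0 h1 ∅ Q).trans (pr_le_supPr h0 h1 (by simp))

lemma supPr_le_one : supPr H p Q ≤ 1 := supPr_le h0 h1 fun U _ => pr_le_one h0 h1 U Q

lemma exists_pr_gt {c : ℝ} (h : c < supPr H p Q) :
    ∃ U : Finset (Sym2 W), ↑U ⊆ H.edgeSet ∧ c < pr p U Q := by
  obtain ⟨U, hU⟩ := exists_lt_of_lt_ciSup h
  exact ⟨U.1, U.2, hU⟩

lemma supPr_mono {R : Finset (Sym2 W) → Prop} (h : ∀ S, Q S → R S) :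
    supPr H p Q ≤ supPr H p R :=
  supPr_le h0 h1 fun U hU => (pr_mono h0 h1 fun S _ => h S).trans (pr_le_supPr h0 h1 hU)

lemma supPr_and_ge {R : Finset (Sym2 W) → Prop} (hQ : Incr Q) (hR : Incr R) :
    supPr H p Q * supPr H p R ≤ supPr H p fun S => Q S ∧ R S := by
  refine le_of_forall_lt_imp_le_of_dense fun c hc => ?_
  rcases lt_or_ge c 0 with hneg | hpos
  · exact hneg.le.trans (supPr_nonneg h0 h1)
  have hR0 : 0 < supPr H p R := by
    by_contra h
    have := le_antisymm (not_lt.1 h) (supPr_nonneg h0 h1)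
    rw [this, mul_zero] at hc
    linarith
  obtain ⟨U, hU, hcU⟩ := exists_pr_gt h0 h1 ((div_lt_iff₀ hR0).2 hc)
  have hU0 : 0 < pr p U Q := lt_of_le_of_lt (div_nonneg hpos hR0.le) hcU
  rw [div_lt_iff₀ hR0, mul_comm, ← div_lt_iff₀ hU0] at hcU
  obtain ⟨V, hV, hcV⟩ := exists_pr_gt h0 h1 hcU
  rw [div_lt_iff₀ hU0, mul_comm] at hcV
  have hUV : ↑(U ∪ V) ⊆ H.edgeSet := by simp [hU, hV]
  refine hcV.le.trans (le_trans ?_ (pr_le_supPr h0 h1 hUV))
  refine le_trans ?_ (pr_and_ge h0 h1 _ hQ hR)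
  exact mul_le_mul (pr_mono_set h0 h1 subset_union_left hQ)
    (pr_mono_set h0 h1 subset_union_right hR) (pr_nonneg h0 h1 _ _) (pr_nonneg h0 h1 _ _)

end supPr

lemma supPr_mono_param {p q : ℝ} (h0 : 0 ≤ p) (hpq : p ≤ q) (h1 : q ≤ 1)
    {Q : Finset (Sym2 W) → Prop} (hQ : Incr Q) : supPr H p Q ≤ supPr H q Q :=
  supPr_le h0 (hpq.trans h1) fun U hU =>
    (pr_monotoneOn U hQ ⟨h0, hpq.trans h1⟩ ⟨h0.trans hpq, h1⟩ hpq).trans
      (pr_le_supPr (h0.trans hpq) h1 hU)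

lemma tau_nonneg {p : ℝ} (h0 : 0 ≤ p) (h1 : p ≤ 1) (x y : W) : 0 ≤ tau H p x y :=
  supPr_nonneg h0 h1

lemma tau_mono {p q : ℝ} (h0 : 0 ≤ p) (hpq : p ≤ q) (h1 : q ≤ 1) (x y : W) :
    tau H p x y ≤ tau H q x y :=
  supPr_mono_param h0 hpq h1 (incr_conn x y)

lemma tau_trans {p : ℝ} (h0 : 0 ≤ p) (h1 : p ≤ 1) (x y z : W) :
    tau H p x y * tau H p y z ≤ tau H p x z :=
  (supPr_and_ge h0 h1 (incr_conn x y) (incr_conn y z)).trans
    (supPr_mono h0 h1 fun _ h => cl_trans (Set.singleton_subset_iff.2 h.1) subset_rfl h.2)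

lemma bigP_mono_param {p q : ℝ} (h0 : 0 ≤ p) (hpq : p ≤ q) (h1 : q ≤ 1) (x : W) (n : ℕ) :
    bigP H p x n ≤ bigP H q x n :=
  supPr_mono_param h0 hpq h1 (incr_big x n)

/-- A connection to a vertex of a big cluster makes the cluster big. -/
lemma bigP_transfer {p : ℝ} (h0 : 0 ≤ p) (h1 : p ≤ 1) (x y : W) (n : ℕ) :
    tau H p x y * bigP H p y n ≤ bigP H p x n :=
  (supPr_and_ge h0 h1 (incr_conn x y) (incr_big y n)).trans
    (supPr_mono h0 h1 fun _ ⟨hxy, Y, hY, hn⟩ =>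
      ⟨Y, fun _ hz => cl_trans (Set.singleton_subset_iff.2 hxy) subset_rfl (hY hz), hn⟩)

/-- Below the threshold the susceptibility is bounded. -/
theorem chiStar_bdd [H.LocallyFinite] (hH : H.Connected) (hQT : QuasiTransitive H) {p : ℝ}
    (h0 : 0 ≤ p) (hp : p < pc H) (h1 : p ≤ 1) :
    BddAbove (Set.range fun a : W × Finset W => ∑ z ∈ a.2, tau H p a.1 z) := by
  classical
  obtain ⟨C, hC⟩ := sharp_susceptibility hH hQT ⟨p, h0, h1⟩ hp
  refine ⟨C, ?_⟩
  rintro _ ⟨⟨v, Λ⟩, rfl⟩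
  refine le_of_forall_pos_le_add fun ε hε => ?_
  have hε' : 0 < ε / (Λ.card + 1) := by positivity
  choose U hU hUz using fun z : W =>
    exists_pr_gt (H := H) (Q := conn v z) h0 h1 (show tau H p v z - ε / (Λ.card + 1) < tau H p v z
      by linarith)
  have hUU : ↑(Λ.biUnion U) ⊆ H.edgeSet := fun e he => by
    obtain ⟨z, -, hz⟩ := mem_biUnion.1 (Finset.mem_coe.1 he)
    exact hU z hz
  have hle : ∀ z ∈ Λ, tau H p v z ≤ pr p (Λ.biUnion U) (conn v z) + ε / (Λ.card + 1) :=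
    fun z hz => by
      linarith [hUz z, pr_mono_set h0 h1 (subset_biUnion_of_mem U hz) (incr_conn v z)]
  refine (sum_le_sum hle).trans ?_
  rw [sum_add_distrib, sum_const, nsmul_eq_mul]
  refine add_le_add ((hC v Λ).1 _ hUU) ?_
  rw [mul_div_assoc', div_le_iff₀ (by positivity)]
  nlinarith

lemma sum_tau_le_chiStar [H.LocallyFinite] (hH : H.Connected) (hQT : QuasiTransitive H) {p : ℝ}
    (h0 : 0 ≤ p) (hp : p < pc H) (h1 : p ≤ 1) (x : W) (Λ : Finset W) :
    ∑ z ∈ Λ, tau H p x z ≤ chiStar H p :=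
  le_ciSup (chiStar_bdd hH hQT h0 hp h1) (x, Λ)

end Vale.Agent.P151.Growth
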