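import Vale.Agent.P151.Growth.Boost

/-!
The ladder below the threshold: a connection at a base parameter, lengthened by the two-parameter
uniqueness, makes the susceptibility at the next parameter much larger through the growth of balls.
-/

open Finset Real

namespace Vale.Agent.P151.Growth

open Vale.Agent.P165

variable {W : Type*} [DecidableEq W] {H : SimpleGraph W} [H.LocallyFinite]

/-- The logarithm of the susceptibility. -/
noncomputable def lchi (H : SimpleGraph W) (p : ℝ) : ℝ := Real.log (chiStar H p)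

lemma one_le_chiStar (hH : H.Connected) (hQT : QuasiTransitive H) {p : ℝ} (h0 : 0 ≤ p)
    (hp : p < pc H) (h1 : p ≤ 1) : 1 ≤ chiStar H p := by
  obtain ⟨x⟩ := hH.nonempty
  refine le_trans ?_ (sum_tau_le_chiStar hH hQT h0 hp h1 x {x})
  rw [sum_singleton, tau_self h0 h1]

/-- What a supercritical behaviour at the threshold and the growth of balls provide. -/
structure Env (H : SimpleGraph W) [H.LocallyFinite] where
  pl : ℝ
  θ : ℝ
  c : ℝ
  C : ℝ
  γ : ℝ
  cg : ℝ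
  connected : H.Connected
  qt : QuasiTransitive H
  pl_pos : 0 < pl
  pl_lt : pl < pc H
  pl_eq : pc H = 2 * pl
  pc_lt_one : pc H < 1
  θ_pos : 0 < θ
  c_pos : 0 < c
  C_nonneg : 0 ≤ C
  γ_gt : 1 < γ
  cg_pos : 0 < cg
  big : ∀ (q : ℝ) (x : W) (n : ℕ), pl ≤ q → q < pc H → (pc H - q) * n ≤ pl → θ ≤ bigP H q x n
  spr : ∀ p q, pl ≤ p → p < q → q < pc H → ∀ (n : ℕ) (x : W),
    (n : ℝ) ≤ c * (q - p) * chiStar H p → c * (q - p) ≤ bigP H q x n
  uniq : ∀ p₀ p : ℝ, 0 ≤ p₀ → p₀ ≤ p → pl ≤ p → p < 1 → p₀ < pc H → ∀ (x y : W) (n : ℕ), 0 < n →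
    (bigP H p x n * bigP H p y n - tau H p x y) * tau H p₀ x y ≤
      C * Real.sqrt (chiStar H p₀ ^ 3) / Real.sqrt (Real.sqrt n)
  grow : ∀ (q : ℝ) (R : ℕ) (l : ℝ), pl ≤ q → q < pc H → 0 < R → 0 < l →
    Linked H q R (exp (-l)) → cg * ((R : ℝ) / l) ^ γ ≤ lchi H q + l

/-- The logarithm of a rung of the ladder. -/
lemma gap_log {d L A : ℝ} (hd : 0 < d) (hL1 : 1 ≤ L) (hA : 0 ≤ A) (hL : L = 1 - log d) {j : ℕ} :
    A - log (d * (1 / 2) ^ (j + 2)) ≤ (A + 3) * L * ((j : ℝ) + 1) := by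
  have hl21 : log 2 ≤ 1 := by linarith [log_le_sub_one_of_pos (two_pos (α := ℝ))]
  rw [log_mul hd.ne' (by positivity), log_pow, one_div, log_inv]
  push_cast
  have h1 : ((j : ℝ) + 2) * log 2 ≤ (j : ℝ) + 2 := mul_le_of_le_one_right (by positivity) hl21
  have h3 : (j : ℝ) ≤ j * L := le_mul_of_one_le_right (Nat.cast_nonneg j) hL1
  have h5 : 0 ≤ A * (L - 1) := mul_nonneg hA (by linarith)
  have h6 : 0 ≤ A * ((j : ℝ) * L) := mul_nonneg hA (by positivity)
  linarith

/-- One rung: the bound of the growth of balls is at least three times the present logarithm. -/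
lemma doubles {γ cg A K L ρ Y Z μ r : ℝ} {j : ℕ} (hγ : 1 < γ) (hcg : 0 < cg) (hA : 1 ≤ A)
    (hK : 1 ≤ K) (hL1 : 1 ≤ L) (hρ0 : 0 < ρ) (hY : 0 < Y) (hμ0 : 0 < μ)
    (hK' : μ * ((j : ℝ) + 1) ≤ (2 : ℝ) ^ ((j : ℝ) * ((γ - 1) / γ)))
    (hZY : (2 : ℝ) ^ j * Y ≤ Z)
    (hbad : (A * K + 3 * (3 * A * K / μ) ^ γ / cg) * L ^ γ ≤ ρ ^ γ * Y ^ (γ - 1))
    (hRR : ρ * Z ≤ A * r) :
    3 * Z ≤ cg * (r / (3 * (K * L * ((j : ℝ) + 1)))) ^ γ := by
  set m := K * L * ((j : ℝ) + 1) with hm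
  have hm0 : 0 < m := by positivity
  have hZ0 : 0 < Z := lt_of_lt_of_le (by positivity) hZY
  have hle : ρ * Z / (3 * A * m) ≤ r / (3 * m) := by
    rw [div_le_div_iff₀ (by positivity) (by positivity)]
    calc ρ * Z * (3 * m) ≤ A * r * (3 * m) := mul_le_mul_of_nonneg_right hRR (by positivity)
      _ = _ := by ring
  refine le_trans ?_ (mul_le_mul_of_nonneg_left
    (rpow_le_rpow (by positivity) hle (by linarith)) hcg.le)
  rw [div_rpow (by positivity) (by positivity), mul_rpow hρ0.le hZ0.le, ← mul_div_assoc,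
    le_div_iff₀ (rpow_pos_of_pos (by positivity) _)]
  have hm' : (3 * A * m) ^ γ ≤
      (3 * A * K / μ) ^ γ * L ^ γ * ((2 : ℝ) ^ j) ^ (γ - 1) := by
    have h1 : 3 * A * m ≤ 3 * A * K / μ * L * (2 : ℝ) ^ ((j : ℝ) * ((γ - 1) / γ)) := by
      calc 3 * A * m = 3 * A * K / μ * L * (μ * ((j : ℝ) + 1)) := by
            rw [hm]; field_simp
        _ ≤ _ := mul_le_mul_of_nonneg_left hK' (by positivity)
    refine (rpow_le_rpow (by positivity) h1 (by linarith)).trans_eq ?_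
    rw [mul_rpow (by positivity) (rpow_nonneg two_pos.le _),
      mul_rpow (by positivity) (by linarith), ← rpow_mul two_pos.le, ← rpow_natCast,
      ← rpow_mul two_pos.le]
    congr 2
    field_simp
  have hY' : ((2 : ℝ) ^ j) ^ (γ - 1) * Y ^ (γ - 1) ≤ Z ^ (γ - 1) := by
    rw [← mul_rpow (by positivity) hY.le]
    exact rpow_le_rpow (by positivity) hZY (by linarith)
  have hZg : Z ^ γ = Z * Z ^ (γ - 1) := by
    rw [← rpow_one_add' hZ0.le (by linarith)]; congr 1; ring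
  have hbad' : 3 * (3 * A * K / μ) ^ γ * L ^ γ ≤ cg * (ρ ^ γ * Y ^ (γ - 1)) := by
    refine le_trans ?_ (mul_le_mul_of_nonneg_left hbad hcg.le)
    rw [add_mul, mul_add, ← mul_assoc cg, ← mul_assoc cg (_ / cg), mul_div_cancel₀ _ hcg.ne']
    have : 0 ≤ cg * (A * K) * L ^ γ :=
      mul_nonneg (mul_nonneg hcg.le (by positivity)) (rpow_nonneg (by linarith) _)
    linarith
  calc 3 * Z * (3 * A * m) ^ γ
      ≤ Z * ((2 : ℝ) ^ j) ^ (γ - 1) * (3 * (3 * A * K / μ) ^ γ * L ^ γ) :=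
        (mul_le_mul_of_nonneg_left hm' (by positivity)).trans_eq (by ring)
    _ ≤ Z * ((2 : ℝ) ^ j) ^ (γ - 1) * (cg * (ρ ^ γ * Y ^ (γ - 1))) :=
        mul_le_mul_of_nonneg_left hbad' (mul_nonneg hZ0.le (rpow_nonneg (by positivity) _))
    _ = cg * ρ ^ γ * Z * (((2 : ℝ) ^ j) ^ (γ - 1) * Y ^ (γ - 1)) := by ring
    _ ≤ cg * ρ ^ γ * Z * Z ^ (γ - 1) := mul_le_mul_of_nonneg_left hY'
        (mul_nonneg (mul_nonneg hcg.le (rpow_nonneg hρ0.le _)) hZ0.le)
    _ = _ := by rw [hZg]; ring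

namespace Env

variable (E : Env H)
include E

lemma q_nonneg {q : ℝ} (h : E.pl ≤ q) : 0 ≤ q := E.pl_pos.le.trans h

lemma q_le_one {q : ℝ} (h : q < pc H) : q ≤ 1 := (h.trans E.pc_lt_one).le

lemma one_le_chi {q : ℝ} (h0 : E.pl ≤ q) (h : q < pc H) : 1 ≤ chiStar H q :=
  one_le_chiStar E.connected E.qt (E.q_nonneg h0) h (E.q_le_one h)

lemma lchi_nonneg {q : ℝ} (h0 : E.pl ≤ q) (h : q < pc H) : 0 ≤ lchi H q :=
  log_nonneg (E.one_le_chi h0 h)

lemma exp_lchi {q : ℝ} (h0 : E.pl ≤ q) (h : q < pc H) : exp (lchi H q) = chiStar H q :=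
  exp_log (one_pos.trans_le (E.one_le_chi h0 h))

lemma lchi_mono {p q : ℝ} (h0 : E.pl ≤ p) (hpq : p ≤ q) (h : q < pc H) :
    lchi H p ≤ lchi H q := by
  refine log_le_log (one_pos.trans_le (E.one_le_chi h0 (hpq.trans_lt h))) ?_
  obtain ⟨x⟩ := E.connected.nonempty
  haveI : Nonempty (W × Finset W) := ⟨(x, ∅)⟩
  exact ciSup_le fun a => (sum_le_sum fun z _ => tau_mono (E.q_nonneg h0) hpq (E.q_le_one h) _ z).trans
    (sum_tau_le_chiStar E.connected E.qt (E.q_nonneg (h0.trans hpq)) h (E.q_le_one h) a.1 a.2)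

/-- A connection at `q₀` and large clusters at `q` give a long connection at `q`. -/
theorem amplify : ∃ A : ℝ, 48 ≤ A ∧ ∀ q₀ q : ℝ, E.pl ≤ q₀ → q₀ ≤ q → q < pc H →
    ∀ (R : ℕ) (l m M : ℝ) (n : ℕ), 0 < R → 0 < l → 0 < n → Linked H q₀ R (exp (-l)) →
      M - m ≤ log n → (∀ x, exp (-m) ≤ bigP H q x n) → A ≤ m →
      16 * lchi H q₀ + A * m + 16 * l ≤ M →
      ∃ R' : ℕ, 0 < R' ∧ Linked H q R' (exp (-(3 * m))) ∧ (R : ℝ) / l * M ≤ A * R' := by
  refine ⟨48 + 8 * (E.C + 1), by linarith [E.C_nonneg], ?_⟩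
  intro q₀ q h₀ h₀q hq R l m M n hR hl hn hL hlog hbig hm hM
  set A := 48 + 8 * (E.C + 1) with hA
  have hC := E.C_nonneg
  have hp0 := E.q_nonneg h₀
  have hp1 := E.q_le_one (h₀q.trans_lt hq)
  have hq0 := E.q_nonneg (h₀.trans h₀q)
  have hq1 := E.q_le_one hq
  have hX0 := E.lchi_nonneg h₀ (h₀q.trans_lt hq)
  have hAm : A ≤ A * m := le_mul_of_one_le_right (by linarith) (by linarith)
  set k := ⌊M / (8 * l)⌋₊ with hk
  have h2 : 2 ≤ M / (8 * l) := by rw [le_div_iff₀ (by positivity)]; linarith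
  have hkle : (k : ℝ) ≤ M / (8 * l) := Nat.floor_le (by linarith)
  have hkge : M / (16 * l) ≤ k := by
    have h3 : M / (8 * l) < k + 1 := Nat.lt_floor_add_one _
    have h4 : M / (16 * l) = M / (8 * l) / 2 := by ring
    linarith
  have hk0 : 0 < k := Nat.floor_pos.2 (by linarith)
  refine ⟨k * R, Nat.mul_pos hk0 hR, fun x y hy => ?_, ?_⟩
  · have h₀xy : exp (-(M / 8)) ≤ tau H q₀ x y := by
      refine le_trans ?_ (Linked.chain hp0 hp1 hL (exp_pos _).le k x y hy)
      rw [← exp_nat_mul, exp_le_exp]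
      rw [le_div_iff₀ (by positivity)] at hkle
      linarith
    have hu : exp ((M - m) / 4) ≤ √√(n : ℝ) := by
      have : exp (M - m) ≤ n := (le_log_iff_exp_le (Nat.cast_pos.2 hn)).1 hlog
      calc exp ((M - m) / 4) = √√(exp (M - m)) := by rw [← exp_half, ← exp_half]; congr 1; ring
        _ ≤ _ := sqrt_le_sqrt (sqrt_le_sqrt this)
    have hQ : √(chiStar H q₀ ^ 3) = exp (3 / 2 * lchi H q₀) := by
      rw [← E.exp_lchi h₀ (h₀q.trans_lt hq), ← exp_nat_mul, ← exp_half]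
      congr 1; push_cast; ring
    have herr : E.C * √(chiStar H q₀ ^ 3) / √√(n : ℝ) ≤
        exp (-(2 * m + 1)) * exp (-(M / 8)) := by
      rw [div_le_iff₀ (lt_of_lt_of_le (exp_pos _) hu), hQ]
      refine le_trans ?_ (mul_le_mul_of_nonneg_left hu (by positivity))
      refine (mul_le_mul_of_nonneg_right
        (show E.C ≤ exp E.C by linarith [add_one_le_exp E.C]) (exp_pos _).le).trans ?_
      rw [← exp_add, ← exp_add, ← exp_add, exp_le_exp]
      have h9 : (8 * (E.C + 1)) * 1 ≤ (8 * (E.C + 1)) * m :=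
        mul_le_mul_of_nonneg_left (by linarith) (by linarith)
      have h10 : A * m = 48 * m + (8 * (E.C + 1)) * m := by rw [hA]; ring
      linarith
    have hb : exp (-(2 * m)) ≤ bigP H q x n * bigP H q y n := by
      rw [show -(2 * m) = -m + -m by ring, exp_add]
      exact mul_le_mul (hbig x) (hbig y) (exp_pos _).le ((exp_pos _).le.trans (hbig x))
    have he : exp (-(2 * m + 1)) ≤ exp (-(2 * m)) / 2 := by
      rw [neg_add, exp_add, div_eq_mul_inv, exp_neg 1]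
      refine mul_le_mul_of_nonneg_left (inv_anti₀ two_pos ?_) (exp_pos _).le
      linarith [add_one_le_exp (1 : ℝ)]
    have hkey := (E.uniq q₀ q hp0 h₀q (h₀.trans h₀q) (hq.trans E.pc_lt_one) (h₀q.trans_lt hq)
      x y n hn).trans herr
    refine le_trans ?_ (show exp (-(2 * m + 1)) ≤ tau H q x y from ?_)
    · rw [exp_le_exp]; linarith
    by_contra hlt
    push Not at hlt
    have hd : exp (-(2 * m + 1)) < bigP H q x n * bigP H q y n - tau H q x y := by linarith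
    have := mul_lt_mul hd h₀xy (exp_pos _) ((exp_pos (-(2 * m + 1))).le.trans hd.le)
    linarith
  · push_cast
    have hkge' : M / (16 * l) * R ≤ k * R := mul_le_mul_of_nonneg_right hkge (Nat.cast_nonneg _)
    have h48 : 16 * ((k : ℝ) * R) ≤ A * (k * R) :=
      mul_le_mul_of_nonneg_right (by linarith) (by positivity)
    have h5 : (R : ℝ) / l * M = 16 * (M / (16 * l) * R) := by field_simp
    linarith

/-- Sprinkling between two parameters, followed by the lengthening. -/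
theorem step : ∃ A : ℝ, 48 ≤ A ∧ ∀ q₀ b q : ℝ, E.pl ≤ q₀ → q₀ ≤ b → b < q → q < pc H →
    ∀ (R : ℕ) (l m : ℝ), 0 < R → 0 < l → Linked H q₀ R (exp (-l)) → A - log (q - b) ≤ m →
      16 * lchi H q₀ + A * m + 16 * l ≤ lchi H b →
      ∃ R' : ℕ, 0 < R' ∧ Linked H q R' (exp (-(3 * m))) ∧ (R : ℝ) / l * lchi H b ≤ A * R' := by
  obtain ⟨A, hA, hamp⟩ := E.amplify
  have hl2 : 0 < log 2 := log_pos one_lt_two
  refine ⟨A + |log E.c| + log 2, by linarith [abs_nonneg (log E.c)], ?_⟩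
  intro q₀ b q h₀ h₀b hbq hq R l m hR hl hL hm hY
  have hd : 0 < q - b := by linarith
  have hb : E.pl ≤ b := h₀.trans h₀b
  have hd1 : log (q - b) ≤ 0 :=
    log_nonpos hd.le (by linarith [E.pc_lt_one, E.q_nonneg hb])
  have hc1 := neg_abs_le (log E.c)
  have hX0 := E.lchi_nonneg h₀ (h₀b.trans_lt (hbq.trans hq))
  have hm0 : A ≤ m := by linarith [abs_nonneg (log E.c)]
  have hAm : A * m ≤ (A + |log E.c| + log 2) * m :=
    mul_le_mul_of_nonneg_right (by linarith [abs_nonneg (log E.c)]) (by linarith)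
  have hmY : m ≤ lchi H b := by
    have : m ≤ A * m := le_mul_of_one_le_left (by linarith) (by linarith)
    linarith
  set v := E.c * (q - b) * chiStar H b with hv
  have hv0 : 0 < v :=
    mul_pos (mul_pos E.c_pos hd) (one_pos.trans_le (E.one_le_chi hb (hbq.trans hq)))
  have hlv : log v = log E.c + log (q - b) + lchi H b := by
    rw [hv, log_mul (mul_pos E.c_pos hd).ne' (one_pos.trans_le (E.one_le_chi hb (hbq.trans hq))).ne',
      log_mul E.c_pos.ne' hd.ne', lchi]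
  have hv2 : 2 ≤ v := (log_le_log_iff two_pos hv0).1 (by linarith)
  have hn : 0 < ⌊v⌋₊ := Nat.floor_pos.2 (by linarith)
  have hnv : v / 2 ≤ (⌊v⌋₊ : ℝ) := by linarith [Nat.lt_floor_add_one v]
  have hbig : exp (-m) ≤ E.c * (q - b) := by
    rw [← exp_log (mul_pos E.c_pos hd), exp_le_exp, log_mul E.c_pos.ne' hd.ne']
    linarith
  obtain ⟨R', hR', hL', hRR⟩ := hamp q₀ q h₀ (h₀b.trans hbq.le) hq R l m (lchi H b) ⌊v⌋₊ hR hl hn hL
    (le_trans (by rw [log_div hv0.ne' two_ne_zero, hlv]; linarith)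
      (log_le_log (by positivity) hnv))
    (fun x => hbig.trans (E.spr b q hb hbq hq _ x (Nat.floor_le hv0.le))) hm0 (by linarith)
  exact ⟨R', hR', hL', hRR.trans (mul_le_mul_of_nonneg_right
    (by linarith [abs_nonneg (log E.c)]) (Nat.cast_nonneg _))⟩

/-- Next to the threshold the susceptibility is at least a power of the logarithm of the gap. -/
theorem top : ∃ κ A : ℝ, 0 < κ ∧ 1 ≤ A ∧ ∀ q₀ b : ℝ, E.pl ≤ q₀ → q₀ ≤ b → b < pc H →
    ∀ (R : ℕ) (l : ℝ), 0 < R → 0 < l → Linked H q₀ R (exp (-l)) →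
      16 * lchi H q₀ + A + 16 * l ≤ -log (pc H - b) →
      κ * ((R : ℝ) / l * -log (pc H - b)) ^ E.γ ≤ lchi H b + A := by
  obtain ⟨A, hA, hamp⟩ := E.amplify
  have hl2 : 0 < log 2 := log_pos one_lt_two
  set m := A + |log E.θ| + |log E.pl| + log 2 with hm
  have hmA : A ≤ m := by linarith [abs_nonneg (log E.θ), abs_nonneg (log E.pl)]
  have hAm : 3 * m ≤ A * m := mul_le_mul_of_nonneg_right (by linarith) (by linarith)
  refine ⟨E.cg / (3 * m * A) ^ E.γ, A * m,
    div_pos E.cg_pos (rpow_pos_of_pos (by positivity) _), by linarith, ?_⟩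
  intro q₀ b h₀ h₀b hb R l hR hl hL hcond
  set L := -log (pc H - b) with hLdef
  have hd : 0 < pc H - b := by linarith
  have hb0 : E.pl ≤ b := h₀.trans h₀b
  have h1 := neg_abs_le (log E.θ)
  have h2 := neg_abs_le (log E.pl)
  have hX0 := E.lchi_nonneg h₀ (h₀b.trans_lt hb)
  set v := E.pl / (pc H - b) with hv
  have hv0 : 0 < v := div_pos E.pl_pos hd
  have hlv : log v = log E.pl + L := by rw [hv, log_div E.pl_pos.ne' hd.ne']; ring
  have hv2 : 2 ≤ v := (log_le_log_iff two_pos hv0).1 (by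
    linarith [abs_nonneg (log E.θ)])
  have hn : 0 < ⌊v⌋₊ := Nat.floor_pos.2 (by linarith)
  have hnv : v / 2 ≤ (⌊v⌋₊ : ℝ) := by linarith [Nat.lt_floor_add_one v]
  have hθ : exp (-m) ≤ E.θ := by
    rw [← exp_log E.θ_pos, exp_le_exp]
    linarith [abs_nonneg (log E.pl)]
  have hvn : (pc H - b) * (⌊v⌋₊ : ℝ) ≤ E.pl := by
    calc (pc H - b) * (⌊v⌋₊ : ℝ) ≤ (pc H - b) * v :=
          mul_le_mul_of_nonneg_left (Nat.floor_le hv0.le) hd.le
      _ = E.pl := mul_div_cancel₀ _ hd.ne'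
  obtain ⟨R', hR', hL', hRR⟩ := hamp q₀ b h₀ h₀b hb R l m L ⌊v⌋₊ hR hl hn hL
    (le_trans (by rw [log_div hv0.ne' two_ne_zero, hlv]; linarith [abs_nonneg (log E.θ)])
      (log_le_log (by positivity) hnv))
    (fun x => hθ.trans (E.big b x _ hb0 hb hvn)) hmA hcond
  have hgrow := E.grow b R' (3 * m) hb0 hb hR' (by linarith) hL'
  have hLnn : 0 ≤ (R : ℝ) / l * L := mul_nonneg (by positivity) (by linarith)
  have : E.cg / (3 * m * A) ^ E.γ * ((R : ℝ) / l * L) ^ E.γ ≤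
      E.cg * ((R' : ℝ) / (3 * m)) ^ E.γ := by
    rw [div_mul_eq_mul_div, mul_div_assoc, ← div_rpow hLnn (by positivity)]
    refine mul_le_mul_of_nonneg_left (rpow_le_rpow (div_nonneg hLnn (by positivity)) ?_
      (by linarith [E.γ_gt])) E.cg_pos.le
    rw [div_le_div_iff₀ (by positivity) (by positivity)]
    calc (R : ℝ) / l * L * (3 * m) ≤ A * R' * (3 * m) :=
          mul_le_mul_of_nonneg_right hRR (by linarith)
      _ = _ := by ring
  linarith

/-- A susceptibility too large for the gap to the threshold would blow up before the threshold. -/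
theorem blow : ∃ A : ℝ, 1 ≤ A ∧ ∀ q₀ b : ℝ, E.pl ≤ q₀ → q₀ ≤ b → b < pc H →
    ∀ (R : ℕ) (l : ℝ), 0 < R → 0 < l → Linked H q₀ R (exp (-l)) →
      16 * lchi H q₀ + A * (1 - log (pc H - b)) + 16 * l ≤ lchi H b →
      ((R : ℝ) / l) ^ E.γ * lchi H b ^ (E.γ - 1) ≤ A * (1 - log (pc H - b)) ^ E.γ := by
  obtain ⟨A, hA, hstep⟩ := E.step
  have hl2 : 0 < log 2 := log_pos one_lt_two
  have hl21 : log 2 ≤ 1 := by linarith [log_le_sub_one_of_pos (two_pos (α := ℝ))]
  have hγ := E.γ_gt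
  set K := A + 3 with hK
  set δ := (E.γ - 1) / E.γ with hδ
  have hδ0 : 0 < δ := div_pos (by linarith) (by linarith)
  set μ := min 1 (δ * log 2) with hμ
  have hμ0 : 0 < μ := lt_min one_pos (mul_pos hδ0 hl2)
  have hK' : ∀ j : ℕ, μ * ((j : ℝ) + 1) ≤ (2 : ℝ) ^ ((j : ℝ) * δ) := by
    intro j
    rw [rpow_def_of_pos two_pos]
    refine le_trans ?_ (add_one_le_exp _)
    have h1 := mul_le_mul_of_nonneg_left (min_le_right 1 (δ * log 2)) (Nat.cast_nonneg (α := ℝ) j)
    have h2 := min_le_left 1 (δ * log 2)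
    rw [← hμ] at h1 h2
    nlinarith
  set A₄ := A * K + 3 * (3 * A * K / μ) ^ E.γ / E.cg with hA₄
  have hpos : 0 ≤ 3 * (3 * A * K / μ) ^ E.γ / E.cg :=
    div_nonneg (mul_nonneg (by norm_num) (rpow_nonneg (by positivity) _)) E.cg_pos.le
  refine ⟨A₄, by nlinarith, ?_⟩
  intro q₀ b h₀ h₀b hb R l hR hl hL hY
  set L := 1 - log (pc H - b) with hLdef
  set ρ := (R : ℝ) / l with hρ
  set Y := lchi H b with hYdef
  have hd : 0 < pc H - b := by linarith
  have hL1 : 1 ≤ L := by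
    have := log_nonpos hd.le (by linarith [E.pc_lt_one, E.q_nonneg (h₀.trans h₀b)])
    linarith
  have hX0 := E.lchi_nonneg h₀ (h₀b.trans_lt hb)
  have hρ0 : 0 < ρ := by rw [hρ]; positivity
  by_contra hbad
  push Not at hbad
  set bs : ℕ → ℝ := fun j => pc H - (pc H - b) * (1 / 2 + (1 / 2) ^ (j + 1)) with hbs
  have hbs0 : bs 0 = b := by simp [bs]; ring
  have hgap : ∀ j, bs (j + 1) - bs j = (pc H - b) * (1 / 2) ^ (j + 2) := fun j => by
    simp only [bs, pow_succ]; ring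
  have hbs1 : ∀ j, bs j ≤ pc H - (pc H - b) / 2 := fun j => by
    have : 0 ≤ (pc H - b) * (1 / 2 : ℝ) ^ (j + 1) := mul_nonneg hd.le (by positivity)
    simp only [bs]; linarith
  have hbs2 : ∀ j, b ≤ bs j := fun j => by
    have : (1 / 2 : ℝ) ^ (j + 1) ≤ 1 / 2 := pow_le_of_le_one (by norm_num) (by norm_num) (by omega)
    have := mul_le_mul_of_nonneg_left this hd.le
    simp only [bs]; linarith
  have hA₄L : A * K * L ≤ A₄ * L := mul_le_mul_of_nonneg_right (by linarith) (by linarith)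
  have hY1 : 1 ≤ Y := by
    have : (1 : ℝ) ≤ A * K * L :=
      one_le_mul_of_one_le_of_one_le (one_le_mul_of_one_le_of_one_le (by linarith) (by linarith))
        hL1
    linarith
  have hind : ∀ j : ℕ, (2 : ℝ) ^ j * Y ≤ lchi H (bs j) := by
    intro j
    induction j with
    | zero => simp [hbs0, hYdef]
    | succ j ih =>
      set Z := lchi H (bs j) with hZ
      set m := K * L * ((j : ℝ) + 1) with hm
      have h2j : (j : ℝ) + 1 ≤ 2 ^ j := by exact_mod_cast (Nat.lt_two_pow_self : j < 2 ^ j)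
      have h2j1 : (1 : ℝ) ≤ 2 ^ j := one_le_pow₀ one_le_two
      have hlog : A - log (bs (j + 1) - bs j) ≤ m := by
        rw [hgap]; exact gap_log hd hL1 (by linarith) hLdef
      have hcond : 16 * lchi H q₀ + A * m + 16 * l ≤ Z := by
        refine le_trans ?_ ih
        refine le_trans ?_ (mul_le_mul_of_nonneg_left hY (by positivity))
        have h1 : A * m ≤ A * K * L * 2 ^ j := by
          rw [hm]
          calc A * (K * L * ((j : ℝ) + 1)) = A * K * L * ((j : ℝ) + 1) := by ring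
            _ ≤ _ := mul_le_mul_of_nonneg_left h2j (by positivity)
        have h2 : A * K * L * 2 ^ j ≤ A₄ * L * 2 ^ j :=
          mul_le_mul_of_nonneg_right hA₄L (by positivity)
        have h3 : 16 * lchi H q₀ + 16 * l ≤ (16 * lchi H q₀ + 16 * l) * 2 ^ j :=
          le_mul_of_one_le_right (by linarith) h2j1
        linarith
      have hm0 : 0 < m := by positivity
      have hlt : bs j < bs (j + 1) := sub_pos.1 (by rw [hgap]; positivity)
      have hq : bs (j + 1) < pc H := lt_of_le_of_lt (hbs1 _) (by linarith)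
      obtain ⟨R', hR', hL', hRR⟩ :=
        hstep q₀ (bs j) (bs (j + 1)) h₀ (h₀b.trans (hbs2 j)) hlt hq R l m hR hl hL hlog hcond
      have hgrow := E.grow _ R' (3 * m) (h₀.trans (h₀b.trans (hbs2 _))) hq hR'
        (by positivity) hL'
      have hm3 : 3 * m ≤ Z := by
        have : 3 * m ≤ A * m := mul_le_mul_of_nonneg_right (by linarith) hm0.le
        linarith
      have hZY : (2 : ℝ) ^ j * Y ≤ Z := ih
      have hZ0 : 0 < Z := lt_of_lt_of_le (by positivity) ih
      -- the growth of balls doubles the logarithm of the susceptibility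
      have key : 3 * Z ≤ E.cg * ((R' : ℝ) / (3 * m)) ^ E.γ :=
        doubles hγ E.cg_pos (by linarith) (by linarith) hL1 hρ0 (by linarith) hμ0 (hK' j) hZY hbad.le
          (by exact_mod_cast hRR)
      have h2 : (2 : ℝ) ^ (j + 1) * Y = 2 * (2 ^ j * Y) := by ring
      linarith
  obtain ⟨j, hj⟩ := pow_unbounded_of_one_lt (lchi H (pc H - (pc H - b) / 2)) one_lt_two
  have h1 := E.lchi_mono (h₀.trans (h₀b.trans (hbs2 j))) (hbs1 j) (by linarith)
  have h2 : (2 : ℝ) ^ j ≤ 2 ^ j * Y := le_mul_of_one_le_right (by positivity) hY1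
  linarith [hind j]

end Env

end Vale.Agent.P151.Growth
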