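import Vale.Agent.P151.Growth.Basic

/-!
Sprinkling: a large susceptibility at `p` forces big clusters at `q > p`, with probability
proportional to `q - p`. The clusters are measured with a random green set in a ball, and the
derivative of the probability of meeting it is bounded below by the finite criterion.
-/

open Finset

namespace Vale.Agent.P151.Growth

open Vale.Agent.P165

section General

variable {α β : Type*} [DecidableEq α] [DecidableEq β]

/-- Averaging commutes with finite probabilities. -/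
lemma wt_pr_swap (h t : ℝ) (Λ : Finset α) (U : Finset β) (R : Finset α → Finset β → Prop) :
    ∑ G ∈ Λ.powerset, wt h Λ G * pr t U (R G)
      = ∑ T ∈ U.powerset, wt t U T * pr h Λ fun G => R G T := by
  classical
  simp only [pr, sum_filter, mul_sum]
  rw [sum_comm]
  refine sum_congr rfl fun T _ => sum_congr rfl fun G _ => ?_
  split_ifs <;> ring

/-- An expectation is at most a bound of the function. -/
lemma wt_sum_le {p c : ℝ} (h0 : 0 ≤ p) (h1 : p ≤ 1) {U : Finset α} {f : Finset α → ℝ}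
    (hf : ∀ S, S ⊆ U → f S ≤ c) : ∑ S ∈ U.powerset, wt p U S * f S ≤ c := by
  refine (sum_le_sum fun S hS =>
    mul_le_mul_of_nonneg_left (hf S (mem_powerset.1 hS)) (wt_nonneg h0 h1 U S)).trans (le_of_eq ?_)
  rw [← sum_mul, wt_sum, one_mul]

/-- A random set misses a fixed set with the product probability. -/
lemma pr_avoid (h : ℝ) {Y Λ : Finset α} (hY : Y ⊆ Λ) :
    pr h Λ (fun G => ∀ y ∈ Y, y ∉ G) = (1 - h) ^ Y.card := by
  have := pr_closed h hY fun _ => True
  rw [pr_true, mul_one] at this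
  rw [← this]
  exact pr_congr fun G _ => ⟨fun e => ⟨eq_empty_of_forall_notMem fun y hy =>
      e y (mem_inter.1 hy).2 (mem_inter.1 hy).1, trivial⟩,
    fun e y hy hyG => by
      have : y ∈ G ∩ Y := mem_inter.2 ⟨hyG, hy⟩
      rw [e.1] at this
      exact notMem_empty y this⟩

lemma mul_pow_le_inv {h : ℝ} (h0 : 0 < h) (h1 : h ≤ 1) (k : ℕ) : (k : ℝ) * (1 - h) ^ k ≤ 1 / h := by
  have hb := one_add_mul_le_pow (show (-2 : ℝ) ≤ h by linarith) k
  have hp : (1 - h) ^ k * (1 + h) ^ k ≤ 1 := by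
    rw [← mul_pow]; exact pow_le_one₀ (mul_nonneg (by linarith) (by linarith)) (by nlinarith)
  have hq : 0 ≤ (1 - h) ^ k := pow_nonneg (by linarith) _
  rw [le_div_iff₀ h0]
  nlinarith [mul_le_mul_of_nonneg_left hb hq]

end General

variable {W : Type*} [DecidableEq W] {H : SimpleGraph W} [H.LocallyFinite]

/-- The trapped set is independent of the edges inside it. -/
lemma trapped_split {p : ℝ} (Λ : Finset W) {S : Finset W} (hS : S ⊆ Λ) (o a : W) :
    pr p (edgesAt H Λ) (fun T => trapped Λ T = S) * pr p (inEdges H S) (fun T => a ∈ cl {o} T)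
      = pr p (edgesAt H Λ) (fun T => trapped Λ T = S ∧ a ∈ cl {o} (T ∩ inEdges H S)) := by
  classical
  have hsub : inEdges H S ⊆ edgesAt H Λ := by
    intro e
    induction e with
    | h x y =>
      intro he
      obtain ⟨hadj, hx, -⟩ := mem_inEdges.1 he
      exact mem_biUnion.2 ⟨x, hS hx, mem_image.2 ⟨y, by simpa using hadj, rfl⟩⟩
  have hsp := pr_split p (sdiff_disjoint (s := inEdges H S) (t := edgesAt H Λ))
    (fun T => trapped Λ T = S) (fun T => a ∈ cl {o} T)
  rw [sdiff_union_of_subset hsub] at hsp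
  have hT' : ∀ T, T ⊆ edgesAt H Λ →
      T ∩ (edgesAt H Λ \ inEdges H S) = T \ inEdges H S := fun T hT => by
    rw [← inter_sdiff_assoc, inter_eq_left.2 hT]
  have hmar : pr p (edgesAt H Λ) (fun T => trapped Λ T = S)
      = pr p (edgesAt H Λ \ inEdges H S) (fun T => trapped Λ T = S) := by
    rw [← pr_marginal p (sdiff_subset (s := edgesAt H Λ) (t := inEdges H S))]
    exact pr_congr fun T hT => by rw [hT' T hT, ← trapped_eq_iff (H := H) T]
  rw [hmar, ← hsp]
  exact pr_congr fun T hT => by rw [hT' T hT, ← trapped_eq_iff (H := H) T]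

/-- A connection stays inside `S` or leaves it through a boundary edge, disjointly. -/
lemma conn_cases {U T : Finset (Sym2 W)} (hU : ↑U ⊆ H.edgeSet) (hT : T ⊆ U) {S : Finset W}
    {o z : W} (ho : o ∈ S) (hz : conn o z T) :
    z ∈ cl {o} (T ∩ inEdges H S) ∨ ∃ e ∈ outPairs H S,
      Box (Box (fun A => e.1 ∈ cl {o} (A ∩ inEdges H S)) (fun A => s(e.1, e.2) ∈ A))
        (conn e.2 z) T := by
  obtain ⟨r⟩ := mem_cl_single.1 hz
  have key : ∀ {u w : W} (π : (SimpleGraph.fromEdgeSet (T : Set (Sym2 W))).Walk u w), π.IsPath →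
      u ∈ S → w ∈ cl {u} (T ∩ inEdges H S) ∨ ∃ e ∈ outPairs H S,
        ∃ A B : Finset (Sym2 W), A ⊆ π.edges.toFinset ∧ B ⊆ π.edges.toFinset ∧
          s(e.1, e.2) ∈ π.edges ∧ s(e.1, e.2) ∉ A ∧ s(e.1, e.2) ∉ B ∧ Disjoint A B ∧
          e.1 ∈ cl {u} (A ∩ inEdges H S) ∧ w ∈ cl {e.2} B := by
    intro u w π
    induction π with
    | nil => exact fun _ _ => Or.inl (subset_cl _ _ rfl)
    | @cons u v w hadj π ih =>
      intro hp hu
      rw [SimpleGraph.Walk.cons_isPath_iff] at hp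
      simp only [SimpleGraph.fromEdgeSet_adj, Finset.mem_coe] at hadj
      have hH : H.Adj u v := hU (hT hadj.1)
      have hfresh : s(u, v) ∉ π.edges := fun h => hp.2 (π.fst_mem_support_of_mem_edges h)
      by_cases hv : v ∈ S
      · have hin : s(u, v) ∈ inEdges H S := mem_inEdges.2 ⟨hH, hu, hv⟩
        rcases ih hp.1 hv with h | ⟨e, he, A, B, hA, hB, hmem, heA, heB, hd, h1, h2⟩
        · exact Or.inl (cl_trans (Set.singleton_subset_iff.2
            (cl_step (subset_cl _ _ (Set.mem_singleton u)) (mem_inter.2 ⟨hadj.1, hin⟩))) subset_rfl h)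
        · have hne : s(e.1, e.2) ≠ s(u, v) := fun h => hfresh (h ▸ hmem)
          refine Or.inr ⟨e, he, insert s(u, v) A, B, ?_, ?_, ?_, ?_, heB, ?_, ?_, h2⟩
          · simp only [SimpleGraph.Walk.edges_cons, List.toFinset_cons]
            exact insert_subset_insert _ hA
          · simp only [SimpleGraph.Walk.edges_cons, List.toFinset_cons]
            exact hB.trans (subset_insert _ _)
          · simp [hmem]
          · simp [hne, heA]
          · exact disjoint_insert_left.2 ⟨fun h => hfresh (List.mem_toFinset.1 (hB h)), hd⟩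
          · exact cl_trans (Set.singleton_subset_iff.2 (cl_step (subset_cl _ _ (Set.mem_singleton u))
              (mem_inter.2 ⟨mem_insert_self _ _, hin⟩)))
              (inter_subset_inter_right (subset_insert _ _)) h1
      · refine Or.inr ⟨(u, v), mem_outPairs.2 ⟨hH, hu, hv⟩, ∅, π.edges.toFinset, empty_subset _,
          ?_, by simp, notMem_empty _, fun h => hfresh (List.mem_toFinset.1 h),
          disjoint_empty_left _, subset_cl _ _ rfl,
          mem_cl_of_walk π fun e he => List.mem_toFinset.2 he⟩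
        simp only [SimpleGraph.Walk.edges_cons, List.toFinset_cons]
        exact subset_insert _ _
  rcases key r.bypass r.bypass_isPath ho with h | ⟨e, he, A, B, hA, hB, hmem, heA, heB, hd, h1, h2⟩
  · exact Or.inl h
  · have sub : r.bypass.edges.toFinset ⊆ T := fun a ha => by
      have := r.bypass.edges_subset_edgeSet (List.mem_toFinset.1 ha)
      rw [SimpleGraph.edgeSet_fromEdgeSet] at this
      exact this.1
    have hs : s(e.1, e.2) ∈ T := sub (List.mem_toFinset.2 hmem)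
    exact Or.inr ⟨e, he, insert s(e.1, e.2) A, B, insert_subset hs (hA.trans sub), hB.trans sub,
      disjoint_insert_left.2 ⟨heB, hd⟩,
      ⟨A, {s(e.1, e.2)}, subset_insert _ _, singleton_subset_iff.2 (mem_insert_self _ _),
        disjoint_singleton_right.2 heA, h1, mem_singleton_self _⟩, h2⟩

/-- Simon's inequality, for targets inside and outside `S`. -/
lemma simon {t : ℝ} (h0 : 0 ≤ t) (h1 : t ≤ 1) {U : Finset (Sym2 W)} (hU : ↑U ⊆ H.edgeSet)
    {S : Finset W} {o : W} (ho : o ∈ S) (L : Finset W) {X : ℝ}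
    (hX : ∀ v, ∑ z ∈ L, pr t U (conn v z) ≤ X) :
    ∑ z ∈ L, pr t U (conn o z)
      ≤ ∑ z ∈ L, pr t (inEdges H S) (conn o z) + phiS H t o S * X := by
  classical
  set I : W → Finset (Sym2 W) → Prop := fun a A => a ∈ cl {o} (A ∩ inEdges H S)
  have hI : ∀ a, Incr (I a) := fun a _ _ h hA =>
    cl_mono subset_rfl (inter_subset_inter_right h) hA
  have hE : ∀ e : Sym2 W, Incr fun A : Finset (Sym2 W) => e ∈ A := fun _ _ _ h hA => h hA
  have hIle : ∀ a, pr t U (I a) ≤ pr t (inEdges H S) (conn o a) := fun a => by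
    rw [pr_congr (R := fun A => conn o a (A ∩ (U ∩ inEdges H S))) fun A hA => by
      simp only [I, conn]; rw [← inter_assoc, inter_eq_left.2 hA],
      pr_marginal t inter_subset_left]
    exact pr_mono_set h0 h1 inter_subset_right (incr_conn o a)
  have hEle : ∀ e : Sym2 W, pr t U (fun A => e ∈ A) ≤ t := fun e => by
    by_cases he : e ∈ U
    · have := pr_all_open (p := t) (singleton_subset_iff.2 he)
      simp only [singleton_subset_iff, card_singleton, pow_one] at this
      rw [this]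
    · refine (pr_le_sum h0 h1 (∅ : Finset Unit) (fun _ _ => True)
        fun A hA h => absurd (hA h) he).trans ?_
      simpa using h0
  have hz : ∀ z ∈ L, pr t U (conn o z) ≤ pr t (inEdges H S) (conn o z)
      + ∑ e ∈ outPairs H S, t * pr t (inEdges H S) (conn o e.1) * pr t U (conn e.2 z) := by
    intro z _
    have hor := pr_or_and t U (I z)
      fun T => ∃ e ∈ outPairs H S, Box (Box (I e.1) fun A => s(e.1, e.2) ∈ A) (conn e.2 z) T
    have hle : pr t U (conn o z) ≤ pr t U fun T => I z T ∨ ∃ e ∈ outPairs H S,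
        Box (Box (I e.1) fun A => s(e.1, e.2) ∈ A) (conn e.2 z) T :=
      pr_mono h0 h1 fun T hT h => conn_cases hU hT ho h
    have hsum : pr t U (fun T => ∃ e ∈ outPairs H S,
        Box (Box (I e.1) fun A => s(e.1, e.2) ∈ A) (conn e.2 z) T)
        ≤ ∑ e ∈ outPairs H S, t * pr t (inEdges H S) (conn o e.1) * pr t U (conn e.2 z) := by
      refine (pr_le_sum h0 h1 _ _ fun T _ h => h).trans (sum_le_sum fun e _ => ?_)
      refine (pr_box_le h0 h1 U (incr_box _ _) (incr_conn _ _)).trans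
        (mul_le_mul_of_nonneg_right ?_ (pr_nonneg h0 h1 _ _))
      refine (pr_box_le h0 h1 U (hI _) (hE _)).trans ?_
      rw [mul_comm t]
      exact mul_le_mul (hIle _) (hEle _) (pr_nonneg h0 h1 _ _) (pr_nonneg h0 h1 _ _)
    linarith [hIle z, pr_nonneg h0 h1 U (fun T => I z T ∧ ∃ e ∈ outPairs H S,
      Box (Box (I e.1) fun A => s(e.1, e.2) ∈ A) (conn e.2 z) T)]
  refine (sum_le_sum hz).trans ?_
  rw [sum_add_distrib, sum_comm]
  refine add_le_add le_rfl ?_
  rw [phiS, mul_assoc, sum_mul, mul_sum]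
  refine sum_le_sum fun e _ => ?_
  rw [← mul_sum, ← mul_assoc]
  exact mul_le_mul_of_nonneg_left (hX e.2) (mul_nonneg h0 (pr_nonneg h0 h1 _ _))

/-- The criterion, weighted by the trapped sets, is at most the pivotal sum. -/
lemma pivotal_sum {p : ℝ} (h0 : 0 ≤ p) (h1 : p ≤ 1) (Λ : Finset W) (o : W) :
    ∑ S ∈ Λ.powerset.filter (fun S => o ∈ S),
        phiS H p o S * pr p (edgesAt H Λ) (fun T => trapped Λ T = S)
      ≤ p * ∑ a ∈ edgesAt H Λ, pr p (edgesAt H Λ) (fun T =>
          a ∉ T ∧ cl {o} T ⊆ (↑Λ : Set W) ∧ ¬ cl {o} (insert a T) ⊆ (↑Λ : Set W)) := by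
  classical
  set U := edgesAt H Λ with hU
  set 𝒮 := Λ.powerset.filter fun S => o ∈ S
  calc ∑ S ∈ 𝒮, phiS H p o S * pr p U (fun T => trapped Λ T = S)
      = p * ∑ S ∈ 𝒮, ∑ e ∈ outPairs H S, pr p U (fun T =>
          trapped Λ T = S ∧ e.1 ∈ cl {o} (T ∩ inEdges H S)) := by
        rw [mul_sum]
        refine sum_congr rfl fun S hS => ?_
        rw [phiS, mul_assoc, sum_mul]
        congr 1
        refine sum_congr rfl fun e _ => ?_
        rw [mul_comm, trapped_split Λ (mem_powerset.1 (mem_filter.1 hS).1) o e.1]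
    _ ≤ _ := by
        refine mul_le_mul_of_nonneg_left ?_ h0
        rw [Finset.sum_sigma']
        have hmaps : ∀ i ∈ 𝒮.sigma fun S => outPairs H S, s(i.2.1, i.2.2) ∈ U := by
          rintro ⟨S, x, y⟩ hi
          obtain ⟨hS, he⟩ := mem_sigma.1 hi
          obtain ⟨hadj, hx, -⟩ := mem_outPairs.1 he
          exact mem_biUnion.2 ⟨x, mem_powerset.1 (mem_filter.1 hS).1 hx,
            mem_image.2 ⟨y, by simpa using hadj, rfl⟩⟩
        rw [← sum_fiberwise_of_maps_to hmaps]
        refine sum_le_sum fun a _ => ?_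
        refine sum_pr_le h0 h1 _ _ ?_ ?_
        · rintro ⟨S, x, y⟩ hi T _ ⟨hT, hx⟩
          obtain ⟨hi', rfl⟩ := mem_filter.1 hi
          obtain ⟨hS, he⟩ := mem_sigma.1 hi'
          obtain ⟨hadj, hxS, hyS⟩ := mem_outPairs.1 he
          have hxo : x ∈ cl {o} T := cl_mono subset_rfl inter_subset_left hx
          have hoΛ : cl {o} T ⊆ (↑Λ : Set W) := mem_trapped.1 (hT.symm ▸ (mem_filter.1 hS).2)
          refine ⟨fun hopen => hyS ?_, hoΛ, fun h => hyS ?_⟩
          · have hy : y ∈ cl {o} T := cl_step hxo hopen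
            exact hT ▸ mem_trapped.2 (cl_eq_of_mem hy ▸ hoΛ)
          · have hy : y ∈ cl {o} (insert s(x, y) T) :=
              cl_step (cl_mono subset_rfl (subset_insert _ _) hxo) (mem_insert_self _ _)
            refine hT ▸ mem_trapped.2 ?_
            exact ((cl_mono subset_rfl (subset_insert _ _)).trans
              (subset_of_eq (cl_eq_of_mem hy))).trans h
        · rintro ⟨S, x, y⟩ hi ⟨S', x', y'⟩ hj T _ ⟨hT, -⟩ ⟨hT', -⟩
          obtain rfl : S = S' := hT.symm.trans hT'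
          obtain ⟨hi, hie⟩ := mem_filter.1 hi
          obtain ⟨hj, hje⟩ := mem_filter.1 hj
          obtain ⟨-, hx, hy⟩ := mem_outPairs.1 (mem_sigma.1 hi).2
          obtain ⟨-, hx', hy'⟩ := mem_outPairs.1 (mem_sigma.1 hj).2
          rcases Sym2.eq_iff.1 (hie.trans hje.symm) with ⟨rfl, rfl⟩ | ⟨rfl, rfl⟩
          · rfl
          · exact absurd hx' hy

/-- The probability that the cluster avoids a random green set of the window. -/
noncomputable def avoidP (H : SimpleGraph W) [H.LocallyFinite] (h : ℝ) (Λ : Finset W) (o : W)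
    (t : ℝ) : ℝ :=
  ∑ G ∈ Λ.powerset, wt h Λ G *
    pr t (edgesAt H (Λ \ G)) fun T => cl {o} T ⊆ (↑(Λ \ G) : Set W)

/-- Events of the cluster inside a smaller window need only its edges. -/
lemma pr_inside (t : ℝ) {Λ₀ Λ : Finset W} (hΛ : Λ₀ ⊆ Λ) (o : W) (R : Set W → Prop) :
    pr t (edgesAt H Λ₀) (fun T => cl {o} T ⊆ (↑Λ₀ : Set W) ∧ R (cl {o} T))
      = pr t (edgesAt H Λ) (fun T => cl {o} T ⊆ (↑Λ₀ : Set W) ∧ R (cl {o} T)) := by
  classical
  have hsub : edgesAt H Λ₀ ⊆ edgesAt H Λ := biUnion_subset_biUnion_of_subset_left _ hΛ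
  rw [← pr_marginal t hsub]
  refine pr_congr fun T hT => ?_
  have key : cl {o} (T ∩ edgesAt H Λ₀) ⊆ (↑Λ₀ : Set W) →
      cl {o} T = cl {o} (T ∩ edgesAt H Λ₀) := by
    intro h
    refine subset_antisymm (cl_subset (subset_cl _ _) fun y z hy hyz => ?_)
      (cl_mono subset_rfl inter_subset_left)
    refine cl_step hy (mem_inter.2 ⟨hyz, mem_biUnion.2 ⟨y, h hy, mem_image.2 ⟨z, ?_, rfl⟩⟩⟩)
    rw [SimpleGraph.mem_neighborFinset]
    have := hT hyz
    simp only [edgesAt, mem_biUnion, mem_image, SimpleGraph.mem_neighborFinset] at this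
    obtain ⟨a, -, b, hab, e⟩ := this
    rcases Sym2.eq_iff.1 e with ⟨rfl, rfl⟩ | ⟨rfl, rfl⟩
    exacts [hab, hab.symm]
  constructor
  · rintro ⟨h1, h2⟩
    rw [key h1]
    exact ⟨h1, h2⟩
  · rintro ⟨h1, h2⟩
    have h1' : cl {o} (T ∩ edgesAt H Λ₀) ⊆ (↑Λ₀ : Set W) :=
      (cl_mono subset_rfl inter_subset_left).trans h1
    rw [← key h1']
    exact ⟨h1, h2⟩

/-- The averaged differential inequality. -/
lemma avoid_deriv {h t : ℝ} (h0 : 0 < h) (h1 : h ≤ 1) (t0 : 0 ≤ t) (t1 : t < 1) (Λ : Finset W)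
    (o : W) {U : Finset (Sym2 W)} (hU : ↑U ⊆ H.edgeSet) (L : Finset W) {X : ℝ} (hX : 0 < X)
    (hXv : ∀ v, ∑ z ∈ L, pr t U (conn v z) ≤ X) :
    ∃ D, HasDerivAt (avoidP H h Λ o) D t ∧ D ≤ 0 ∧
      (∑ z ∈ L, pr t U (conn o z)) * avoidP H h Λ o t - 1 / h ≤ -D * X := by
  classical
  set D₀ : Finset W → ℝ := fun Λ₀ => -((∑ a ∈ edgesAt H Λ₀, pr t (edgesAt H Λ₀) fun T =>
    a ∉ T ∧ cl {o} T ⊆ (↑Λ₀ : Set W) ∧ ¬ cl {o} (insert a T) ⊆ (↑Λ₀ : Set W)) / (1 - t))
  have hD₀le : ∀ Λ₀, D₀ Λ₀ ≤ 0 := fun Λ₀ => neg_nonpos.2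
    (div_nonneg (sum_nonneg fun a _ => pr_nonneg t0 t1.le _ _) (by linarith))
  have hd : ∀ Λ₀ : Finset W, HasDerivAt
      (fun s => pr s (edgesAt H Λ₀) fun T => cl {o} T ⊆ (↑Λ₀ : Set W)) (D₀ Λ₀) t := by
    intro Λ₀
    have hA : ∀ S T, S ⊆ T → (¬ cl {o} S ⊆ (↑Λ₀ : Set W)) → ¬ cl {o} T ⊆ (↑Λ₀ : Set W) :=
      fun S T hST hn hT => hn ((cl_mono subset_rfl hST).trans hT)
    have := (hasDerivAt_pr_pivotal t1.ne (edgesAt H Λ₀) hA).const_sub 1
    refine (this.congr_deriv ?_).congr_of_eventuallyEq (Filter.Eventually.of_forall fun s => ?_)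
    · simp only [D₀, not_not]
    · have := pr_compl s (edgesAt H Λ₀) fun T => cl {o} T ⊆ (↑Λ₀ : Set W)
      simp only
      linarith
  set A := ∑ z ∈ L, pr t U (conn o z)
  have hA0 : 0 ≤ A := sum_nonneg fun z _ => pr_nonneg t0 t1.le _ _
  set E : Finset W → ℝ := fun Λ₀ => ∑ z ∈ L, pr t (edgesAt H Λ₀)
    fun T => cl {o} T ⊆ (↑Λ₀ : Set W) ∧ z ∈ cl {o} T
  have hG : ∀ Λ₀ : Finset W,
      A * pr t (edgesAt H Λ₀) (fun T => cl {o} T ⊆ (↑Λ₀ : Set W)) ≤ E Λ₀ + -(D₀ Λ₀) * X := by
    intro Λ₀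
    set 𝒮 := Λ₀.powerset.filter fun S => o ∈ S
    set P : Finset W → ℝ := fun S => pr t (edgesAt H Λ₀) fun T => trapped Λ₀ T = S
    have hP : pr t (edgesAt H Λ₀) (fun T => cl {o} T ⊆ (↑Λ₀ : Set W)) ≤ ∑ S ∈ 𝒮, P S :=
      pr_le_sum t0 t1.le 𝒮 _ fun T _ hT => ⟨trapped Λ₀ T, mem_filter.2
        ⟨mem_powerset.2 (filter_subset _ _), mem_trapped.2 hT⟩, rfl⟩
    have hS : ∀ S ∈ 𝒮, A * P S ≤ ∑ z ∈ L, pr t (edgesAt H Λ₀)
        (fun T => trapped Λ₀ T = S ∧ z ∈ cl {o} (T ∩ inEdges H S))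
          + phiS H t o S * P S * X := by
      intro S hS
      refine (mul_le_mul_of_nonneg_right (simon t0 t1.le hU (mem_filter.1 hS).2 L hXv)
        (pr_nonneg t0 t1.le _ _)).trans (le_of_eq ?_)
      rw [add_mul, sum_mul, mul_right_comm _ X]
      refine congrArg₂ (· + ·) (sum_congr rfl fun z _ => ?_) rfl
      rw [mul_comm]
      exact trapped_split Λ₀ (mem_powerset.1 (mem_filter.1 hS).1) o z
    have hpiv : ∑ S ∈ 𝒮, phiS H t o S * P S ≤ -(D₀ Λ₀) := by
      refine (pivotal_sum t0 t1.le Λ₀ o).trans ?_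
      simp only [D₀, neg_neg]
      set piv := ∑ a ∈ edgesAt H Λ₀, pr t (edgesAt H Λ₀) fun T =>
        a ∉ T ∧ cl {o} T ⊆ (↑Λ₀ : Set W) ∧ ¬ cl {o} (insert a T) ⊆ (↑Λ₀ : Set W)
      have hp : 0 ≤ piv := sum_nonneg fun a _ => pr_nonneg t0 t1.le _ _
      rw [le_div_iff₀ (by linarith)]
      nlinarith [mul_nonneg hp (sq_nonneg (1 - t)), mul_nonneg hp t0]
    calc A * pr t (edgesAt H Λ₀) (fun T => cl {o} T ⊆ (↑Λ₀ : Set W))
        ≤ ∑ S ∈ 𝒮, A * P S := by rw [← mul_sum]; exact mul_le_mul_of_nonneg_left hP hA0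
      _ ≤ _ := sum_le_sum hS
      _ ≤ E Λ₀ + -(D₀ Λ₀) * X := by
        rw [sum_add_distrib, sum_comm, ← sum_mul]
        refine add_le_add (sum_le_sum fun z _ => sum_pr_le t0 t1.le _ _ ?_ ?_)
          (mul_le_mul_of_nonneg_right hpiv hX.le)
        · intro S hS T _ ⟨hT, hz⟩
          exact ⟨mem_trapped.1 (hT.symm ▸ (mem_filter.1 hS).2),
            cl_mono subset_rfl inter_subset_left hz⟩
        · intro S _ S' _ T _ hT hT'
          exact hT.1.symm.trans hT'.1
  have hEsum : ∑ G ∈ Λ.powerset, wt h Λ G * E (Λ \ G) ≤ 1 / h := by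
    have e : ∀ G, E (Λ \ G) = ∑ z ∈ L, pr t (edgesAt H Λ)
        fun T => cl {o} T ⊆ (↑(Λ \ G) : Set W) ∧ z ∈ cl {o} T := fun G =>
      sum_congr rfl fun z _ => pr_inside t sdiff_subset o fun C => z ∈ C
    simp only [e, mul_sum]
    rw [sum_comm]
    rw [sum_congr rfl fun z (_ : z ∈ L) => wt_pr_swap h t Λ (edgesAt H Λ)
      fun G T => cl {o} T ⊆ (↑(Λ \ G) : Set W) ∧ z ∈ cl {o} T]
    rw [sum_comm]
    simp only [← mul_sum]
    refine wt_sum_le t0 t1.le fun T _ => ?_
    by_cases hcl : cl {o} T ⊆ (↑Λ : Set W)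
    · set Y := Λ.filter fun y => y ∈ cl {o} T
      have hav : pr h Λ (fun G => ∀ y ∈ Y, y ∉ G) = (1 - h) ^ Y.card :=
        pr_avoid h (filter_subset _ _)
      calc ∑ z ∈ L, pr h Λ (fun G => cl {o} T ⊆ (↑(Λ \ G) : Set W) ∧ z ∈ cl {o} T)
          ≤ ∑ z ∈ L, if z ∈ Y then (1 - h) ^ Y.card else 0 := by
            refine sum_le_sum fun z _ => ?_
            split_ifs with hz
            · rw [← hav]
              refine pr_mono h0.le h1 fun G _ hG y hy => ?_
              exact (mem_sdiff.1 (hG.1 (mem_filter.1 hy).2)).2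
            · refine (pr_le_sum h0.le h1 (∅ : Finset Unit) (fun _ _ => True) fun G _ hG =>
                absurd (mem_filter.2 ⟨hcl hG.2, hG.2⟩) hz).trans ?_
              simp
        _ ≤ (Y.card : ℝ) * (1 - h) ^ Y.card := by
            rw [← sum_filter, sum_const, nsmul_eq_mul]
            refine mul_le_mul_of_nonneg_right ?_ (pow_nonneg (by linarith) _)
            exact_mod_cast card_le_card fun z hz => (mem_filter.1 hz).2
        _ ≤ 1 / h := mul_pow_le_inv h0 h1 _
    · refine (sum_le_sum fun z _ => (pr_le_sum h0.le h1 (∅ : Finset Unit) (fun _ _ => True)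
        fun G _ hG => absurd (hG.1.trans (coe_subset.2 sdiff_subset)) hcl)).trans ?_
      simp
      positivity
  refine ⟨∑ G ∈ Λ.powerset, wt h Λ G * D₀ (Λ \ G),
    (HasDerivAt.sum fun G _ => (hd (Λ \ G)).const_mul (wt h Λ G)).congr_of_eventuallyEq
      (Filter.Eventually.of_forall fun s => by simp [avoidP]),
    sum_nonpos fun G _ => mul_nonpos_of_nonneg_of_nonpos (wt_nonneg h0.le h1 Λ G) (hD₀le _), ?_⟩
  have hmain : A * avoidP H h Λ o t ≤ ∑ G ∈ Λ.powerset,
      (wt h Λ G * E (Λ \ G) + -(wt h Λ G * D₀ (Λ \ G)) * X) := by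
    rw [avoidP, mul_sum]
    refine sum_le_sum fun G _ => ?_
    have := mul_le_mul_of_nonneg_left (hG (Λ \ G)) (wt_nonneg h0.le h1 Λ G)
    linarith
  rw [sum_add_distrib, ← sum_mul, sum_neg_distrib] at hmain
  linarith

/-- A cluster leaving a ball around its root is big. -/
lemma card_of_leave {T : Finset (Sym2 W)} (hT : ↑T ⊆ H.edgeSet) {o z : W} {n : ℕ}
    (hz : z ∈ cl {o} T) (hout : z ∉ ball H o n) : Big o n T := by
  obtain ⟨r⟩ := mem_cl_single.1 hz
  have hp : r.bypass.IsPath := r.bypass_isPath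
  have hle : SimpleGraph.fromEdgeSet (T : Set (Sym2 W)) ≤ H := fun a b hab => hT hab.1
  refine ⟨r.bypass.support.toFinset, fun y hy => ?_, ?_⟩
  · exact mem_cl_single.2 ⟨r.bypass.takeUntil y (List.mem_toFinset.1 hy)⟩
  · rw [List.toFinset_card_of_nodup hp.support_nodup, SimpleGraph.Walk.length_support]
    by_contra hn
    exact hout (ball_symm (mem_ball_of_walk (r.bypass.mapLe hle) (by simp; omega)))

/-- Missing the green set is likely unless the cluster is big. -/
lemma avoid_ge {h q : ℝ} (h0 : 0 ≤ h) (h1 : h ≤ 1) (q0 : 0 ≤ q) (q1 : q ≤ 1) (o : W) (n : ℕ) :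
    1 - avoidP H h (ball H o n) o q ≤ bigP H q o n + (n : ℝ) * h := by
  classical
  set Λ := ball H o n
  have hU : ↑(edgesAt H Λ) ⊆ H.edgeSet := fun e he => boxEdges_edge (Finset.mem_coe.1 he)
  have e : avoidP H h Λ o q = ∑ T ∈ (edgesAt H Λ).powerset, wt q (edgesAt H Λ) T *
      pr h Λ (fun G => cl {o} T ⊆ (↑(Λ \ G) : Set W)) := by
    rw [avoidP, ← wt_pr_swap]
    refine sum_congr rfl fun G _ => congrArg _ ?_
    simpa using pr_inside (H := H) q (Λ₀ := Λ \ G) (Λ := Λ) sdiff_subset o fun _ => True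
  rw [e, ← wt_sum q (edgesAt H Λ), ← sum_sub_distrib]
  refine le_trans ?_ (add_le_add (pr_le_supPr (Q := Big o n) q0 q1 hU) le_rfl)
  have key : ∀ T ∈ (edgesAt H Λ).powerset,
      wt q (edgesAt H Λ) T - wt q (edgesAt H Λ) T *
        pr h Λ (fun G => cl {o} T ⊆ (↑(Λ \ G) : Set W))
      ≤ (if Big o n T then wt q (edgesAt H Λ) T else 0) + wt q (edgesAt H Λ) T * (n * h) := by
    intro T hT
    have hw := wt_nonneg q0 q1 (edgesAt H Λ) T
    have hc := pr_nonneg h0 h1 Λ fun G => cl {o} T ⊆ (↑(Λ \ G) : Set W)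
    split_ifs with hB
    · nlinarith [mul_nonneg hw hc, mul_nonneg hw (mul_nonneg (Nat.cast_nonneg (α := ℝ) n) h0)]
    · have hin : cl {o} T ⊆ (↑Λ : Set W) := fun z hz => by
        by_contra hout
        exact hB (card_of_leave (fun e he => hU (mem_powerset.1 hT he)) hz hout)
      set Y := Λ.filter fun y => y ∈ cl {o} T
      have hY : Y.card < n := by
        by_contra hY
        exact hB ⟨Y, fun y hy => (mem_filter.1 hy).2, not_lt.1 hY⟩
      have h2 : pr h Λ (fun G => ¬ cl {o} T ⊆ (↑(Λ \ G) : Set W)) ≤ (n : ℝ) * h := by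
        refine (pr_le_sum h0 h1 Y (fun y G => {y} ⊆ G) fun G _ hG => ?_).trans ?_
        · obtain ⟨y, hy, hy'⟩ := Set.not_subset.1 hG
          refine ⟨y, mem_filter.2 ⟨hin hy, hy⟩, singleton_subset_iff.2 ?_⟩
          by_contra hyG
          exact hy' (mem_sdiff.2 ⟨hin hy, hyG⟩)
        · rw [sum_congr rfl fun y hy => pr_all_open (p := h)
            (singleton_subset_iff.2 (mem_filter.1 hy).1)]
          simp only [card_singleton, pow_one, sum_const, nsmul_eq_mul]
          exact mul_le_mul_of_nonneg_right (by exact_mod_cast hY.le) h0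
      have h3 := pr_compl h Λ fun G => cl {o} T ⊆ (↑(Λ \ G) : Set W)
      nlinarith [mul_le_mul_of_nonneg_left
        (show 1 - pr h Λ (fun G => cl {o} T ⊆ (↑(Λ \ G) : Set W)) ≤ (n : ℝ) * h by linarith) hw]
  refine (sum_le_sum key).trans (le_of_eq ?_)
  rw [sum_add_distrib, ← sum_mul, wt_sum, one_mul, pr, sum_filter]

omit [H.LocallyFinite] in
/-- Finite witnesses for finite sums of two-point functions. -/
lemma exists_witness {t : ℝ} (h0 : 0 ≤ t) (h1 : t ≤ 1) (o : W) (L : Finset W) {c : ℝ}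
    (hc : c < ∑ z ∈ L, tau H t o z) :
    ∃ U : Finset (Sym2 W), ↑U ⊆ H.edgeSet ∧ c ≤ ∑ z ∈ L, pr t U (conn o z) := by
  classical
  set ε := (∑ z ∈ L, tau H t o z - c) / (L.card + 1)
  have hε : 0 < ε := div_pos (by linarith) (by positivity)
  choose U hU hUz using fun z : W =>
    exists_pr_gt (H := H) (Q := conn o z) h0 h1 (show tau H t o z - ε < tau H t o z by linarith)
  refine ⟨L.biUnion U, fun e he => ?_, ?_⟩
  · obtain ⟨z, -, hz⟩ := mem_biUnion.1 (Finset.mem_coe.1 he)
    exact hU z hz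
  · have := sum_le_sum fun z (hz : z ∈ L) => (hUz z).le.trans
      (pr_mono_set h0 h1 (subset_biUnion_of_mem U hz) (incr_conn o z))
    rw [sum_sub_distrib, sum_const, nsmul_eq_mul] at this
    have e : (L.card : ℝ) * ε ≤ ∑ z ∈ L, tau H t o z - c := by
      rw [mul_div_assoc', div_le_iff₀ (by positivity)]
      nlinarith
    linarith

/-- The root nearly attains the susceptibility. -/
lemma exists_root_witness (hH : H.Connected) (hQT : QuasiTransitive H) {pl : ℝ} (hpl : 0 < pl)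
    {K : ℕ} (hK : ∀ x y : W, ∃ φ : H ≃g H, φ y ∈ ball H x K) (o : W) {t : ℝ} (hlt : pl ≤ t)
    (ht : t < pc H) (t1 : t ≤ 1) :
    1 ≤ chiStar H t ∧ ∃ (U : Finset (Sym2 W)) (L : Finset W), ↑U ⊆ H.edgeSet ∧
      pl ^ K / 4 * chiStar H t ≤ ∑ z ∈ L, pr t U (conn o z) := by
  have t0 : 0 ≤ t := hpl.le.trans hlt
  have h1' : 1 ≤ chiStar H t := by
    have := sum_tau_le_chiStar hH hQT t0 ht t1 o {o}
    rwa [sum_singleton, tau_self t0 t1] at this
  refine ⟨h1', ?_⟩
  have : Nonempty (W × Finset W) := ⟨(o, ∅)⟩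
  obtain ⟨⟨a, L⟩, hL⟩ := exists_lt_of_lt_ciSup
    (show chiStar H t / 2 < ⨆ a : W × Finset W, ∑ z ∈ a.2, tau H t a.1 z by
      change chiStar H t / 2 < chiStar H t; linarith)
  obtain ⟨φ, hφ⟩ := hK o a
  have hη : pl ^ K ≤ tau H t o (φ a) := by
    refine le_trans (pow_le_pow_left₀ hpl.le hlt K) ?_
    exact ((linked_one t0 t1).chain t0 t1 t0 K) o (φ a) (by rwa [Nat.mul_one])
  have hsum : pl ^ K * ∑ z ∈ L, tau H t a z ≤ ∑ z ∈ L.map φ.toEquiv.toEmbedding, tau H t o z := by
    rw [sum_map, mul_sum]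
    refine sum_le_sum fun z _ => le_trans ?_ (tau_trans t0 t1 o (φ a) (φ z))
    rw [← tau_iso t0 t1 φ a z]
    exact mul_le_mul_of_nonneg_right hη (tau_nonneg t0 t1 _ _)
  have hpk : 0 < pl ^ K := pow_pos hpl K
  obtain ⟨U, hU, hUc⟩ := exists_witness t0 t1 o (L.map φ.toEquiv.toEmbedding)
    (show pl ^ K / 4 * chiStar H t < _ by
      refine lt_of_lt_of_le ?_ hsum
      nlinarith [mul_lt_mul_of_pos_left hL hpk])
  exact ⟨U, _, hU, hUc⟩

/-- A large susceptibility at `p` gives big clusters at `q > p`. -/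
theorem sprinkle (hH : H.Connected) (hQT : QuasiTransitive H) (hpc1 : pc H < 1) {pl : ℝ}
    (hpl : 0 < pl) :
    ∃ c : ℝ, 0 < c ∧ ∀ p q : ℝ, pl ≤ p → p < q → q < pc H → ∀ (n : ℕ) (x : W),
      (n : ℝ) ≤ c * (q - p) * chiStar H p → c * (q - p) ≤ bigP H q x n := by
  classical
  obtain ⟨K, hK⟩ := exists_near hH hQT
  set η := min (pl ^ K) 1
  have hη : 0 < η := lt_min (pow_pos hpl K) one_pos
  have hη1 : η ≤ 1 := min_le_right _ _
  refine ⟨η ^ 2 / 1024, by positivity, fun p q hp hpq hq n o hn => ?_⟩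
  set c := η ^ 2 / 1024 with hc
  have hc0 : 0 < c := by positivity
  have hq1 : q < 1 := hq.trans hpc1
  have hp0 : 0 < p := hpl.trans_le hp
  have hd : 0 < q - p := by linarith
  have hd1 : q - p ≤ 1 := by linarith
  have hcd : c * (q - p) ≤ 1 / 1024 := by
    have : η ^ 2 ≤ 1 := pow_le_one₀ hη.le hη1
    nlinarith
  obtain ⟨hX1, -⟩ := exists_root_witness hH hQT hpl hK o hp (by linarith) (by linarith)
  by_cases hbig : η * chiStar H p < 16
  · have : n = 0 := by
      by_contra h0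
      have h1 : (1 : ℝ) ≤ n := by exact_mod_cast Nat.one_le_iff_ne_zero.2 h0
      have e : c * (q - p) * chiStar H p = η * (q - p) / 1024 * (η * chiStar H p) := by
        rw [hc]; ring
      rw [e] at hn
      nlinarith [mul_lt_mul_of_pos_left hbig (show 0 < η * (q - p) / 1024 by positivity)]
    subst this
    refine le_trans ?_ (pr_le_supPr (H := H) (U := ∅) (by linarith) hq1.le (by simp))
    rw [pr_congr (R := fun _ => True) fun S _ => iff_true_intro ⟨∅, by simp, le_rfl⟩, pr_true]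
    linarith
  rw [not_lt] at hbig
  set h := 16 / (η * chiStar H p) with hh
  have hh0 : 0 < h := div_pos (by norm_num) (lt_of_lt_of_le (by norm_num) hbig)
  have hh1 : h ≤ 1 := (div_le_one (lt_of_lt_of_le (by norm_num) hbig)).2 hbig
  set Z := avoidP H h (ball H o n) o with hZ
  -- it is enough that `Z` drops by a multiple of `q - p`
  suffices hdrop : η / 32 * (q - p) ≤ 1 - Z q by
    have hnh : (n : ℝ) * h ≤ η / 64 * (q - p) := by
      refine (mul_le_mul_of_nonneg_right hn hh0.le).trans (le_of_eq ?_)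
      rw [hh, hc]
      have : chiStar H p ≠ 0 := by linarith
      field_simp
      ring
    have := avoid_ge (H := H) hh0.le hh1 (by linarith) hq1.le o n
    have hcη : c * (q - p) ≤ η / 64 * (q - p) := by
      refine mul_le_mul_of_nonneg_right ?_ hd.le
      rw [hc]; nlinarith
    linarith
  rcases le_or_gt (Z q) (1 / 2) with hhalf | hhalf
  · nlinarith
  have hZle : Z p ≤ 1 := by
    refine wt_sum_le hh0.le hh1 fun G _ => pr_le_one hp0.le (by linarith) _ _
  have hX : ∀ t, p ≤ t → t ≤ q → ∀ (U : Finset (Sym2 W)), ↑U ⊆ H.edgeSet → ∀ (L : Finset W) v,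
      ∑ z ∈ L, pr t U (conn v z) ≤ chiStar H t := fun t h₁ h₂ U hU L v =>
    (sum_le_sum fun z _ => pr_le_supPr (hp0.le.trans h₁) (by linarith) hU).trans
      (sum_tau_le_chiStar hH hQT (hp0.le.trans h₁) (by linarith) (by linarith) v L)
  have hXmono : ∀ s t, p ≤ s → s ≤ t → t ≤ q → chiStar H s ≤ chiStar H t := fun s t h₁ h₂ h₃ => by
    have : Nonempty (W × Finset W) := ⟨(o, ∅)⟩
    exact ciSup_le fun a => (sum_le_sum fun z _ =>
      tau_mono (hp0.le.trans h₁) h₂ (by linarith) a.1 z).trans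
      (sum_tau_le_chiStar hH hQT (by linarith) (by linarith) (by linarith) a.1 a.2)
  have hanti : AntitoneOn Z (Set.Icc p q) := by
    have hD : ∀ t ∈ Set.Icc p q, ∃ D, HasDerivAt Z D t ∧ D ≤ 0 := fun t ht => by
      obtain ⟨D, h₁, h₂, -⟩ := avoid_deriv (H := H) (t := t) hh0 hh1 (by linarith [ht.1]) (by linarith [ht.2])
        (ball H o n) o (U := ∅) (by simp) ∅ one_pos (by simp)
      exact ⟨D, h₁, h₂⟩
    choose D hD₁ hD₂ using hD
    exact antitoneOn_of_deriv_nonpos (convex_Icc p q)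
      (fun t ht => (hD₁ t ht).continuousAt.continuousWithinAt)
      (fun t ht => (hD₁ t (interior_subset ht)).differentiableAt.differentiableWithinAt)
      fun t ht => by rw [(hD₁ t (interior_subset ht)).deriv]; exact hD₂ t (interior_subset ht)
  -- a grid on which the susceptibility seldom jumps
  set Λ₀ := Real.log (chiStar H q / chiStar H p)
  obtain ⟨m, hm⟩ := exists_nat_gt (2 * |Λ₀|)
  have hm0 : (0 : ℝ) < m := lt_of_le_of_lt (by positivity) hm
  set a : ℕ → ℝ := fun i => p + i * ((q - p) / m) with ha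
  have ha_mem : ∀ i ≤ m, a i ∈ Set.Icc p q := fun i hi => by
    have h₁ : (i : ℝ) * ((q - p) / m) ≤ (m : ℝ) * ((q - p) / m) :=
      mul_le_mul_of_nonneg_right (by exact_mod_cast hi) (div_nonneg hd.le hm0.le)
    rw [mul_div_cancel₀ _ hm0.ne'] at h₁
    have h₂ : (0 : ℝ) ≤ (i : ℝ) * ((q - p) / m) := by positivity
    simp only [ha, Set.mem_Icc]
    constructor <;> linarith
  have hstep : ∀ i < m, η / 16 * ((q - p) / m) *
      (1 + (Real.log (chiStar H (a i)) - Real.log (chiStar H (a (i + 1)))))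
      ≤ Z (a i) - Z (a (i + 1)) := by
    intro i hi
    have m1 := ha_mem i hi.le
    have m2 := ha_mem (i + 1) hi
    have hlt : a i < a (i + 1) := by simp only [ha]; push_cast; nlinarith [div_pos hd hm0]
    obtain ⟨hXi, U, L, hU, hw⟩ := exists_root_witness hH hQT hpl hK o (hp.trans m1.1)
      (by linarith [m1.2]) (by linarith [m1.2])
    set X₀ := chiStar H (a i) with hX₀
    set X₁ := chiStar H (a (i + 1)) with hX₁
    have hX₁0 : 0 < X₁ := lt_of_lt_of_le (by linarith) (hXmono _ _ m1.1 hlt.le m2.2)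
    have hder : ∀ t ∈ Set.Icc (a i) (a (i + 1)), ∃ D, HasDerivAt Z D t ∧
        D ≤ -(η / 16 * (X₀ / X₁)) := by
      intro t ht
      have tp : p ≤ t := m1.1.trans ht.1
      have tq : t ≤ q := ht.2.trans m2.2
      obtain ⟨D, hD1, -, hD3⟩ := avoid_deriv (H := H) (t := t) hh0 hh1 (by linarith) (by linarith)
        (ball H o n) o hU L hX₁0 fun v =>
          (hX t tp tq U hU L v).trans (hXmono t _ tp ht.2 m2.2)
      refine ⟨D, hD1, ?_⟩
      have hA : η / 4 * X₀ ≤ ∑ z ∈ L, pr t U (conn o z) := by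
        refine le_trans ?_ (hw.trans (sum_le_sum fun z _ => pr_monotoneOn U (incr_conn o z)
          ⟨by linarith [m1.1], by linarith [m1.2]⟩ ⟨by linarith, by linarith⟩ ht.1))
        exact mul_le_mul_of_nonneg_right
          (div_le_div_of_nonneg_right (min_le_left _ _) (by norm_num)) (by linarith)
      have hZt : (1 / 2 : ℝ) < Z t :=
        hhalf.trans_le (hanti ⟨tp, tq⟩ ⟨hpq.le, le_rfl⟩ tq)
      have hinv : 1 / h ≤ η / 16 * X₀ := by
        rw [hh, one_div_div, div_mul_eq_mul_div, div_le_div_iff_of_pos_right (by norm_num)]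
        exact mul_le_mul_of_nonneg_left (hXmono _ _ le_rfl m1.1 m1.2) hη.le
      have h4 := mul_le_mul hA hZt.le (by norm_num) (sum_nonneg fun z _ =>
        pr_nonneg (by linarith) (by linarith) _ _)
      rw [le_neg, mul_div_assoc', div_le_iff₀ hX₁0]
      nlinarith
    choose D hD1 hD2 using hder
    have hmv := (convex_Icc (a i) (a (i + 1))).image_sub_le_mul_sub_of_deriv_le
      (C := -(η / 16 * (X₀ / X₁)))
      (fun t ht => (hD1 t ht).continuousAt.continuousWithinAt)
      (fun t ht => (hD1 t (interior_subset ht)).differentiableAt.differentiableWithinAt)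
      (fun t ht => by rw [(hD1 t (interior_subset ht)).deriv]; exact hD2 t (interior_subset ht))
      (a i) (Set.left_mem_Icc.2 hlt.le) (a (i + 1)) (Set.right_mem_Icc.2 hlt.le) hlt.le
    have hlog : 1 + (Real.log X₀ - Real.log X₁) ≤ X₀ / X₁ := by
      have := Real.log_le_sub_one_of_pos (div_pos (by linarith) hX₁0 : 0 < X₀ / X₁)
      rw [Real.log_div (by linarith) hX₁0.ne'] at this
      linarith
    have e : a (i + 1) - a i = (q - p) / m := by simp only [ha]; push_cast; ring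
    rw [e] at hmv
    nlinarith [mul_le_mul_of_nonneg_left hlog
      (show 0 ≤ η / 16 * ((q - p) / m) by positivity)]
  have htot := sum_le_sum fun i (hi : i ∈ range m) => hstep i (mem_range.1 hi)
  rw [← mul_sum, sum_range_sub' (fun i => Z (a i)), sum_add_distrib,
    sum_range_sub' (fun i => Real.log (chiStar H (a i))), sum_const, card_range, nsmul_eq_mul,
    mul_one] at htot
  have e0 : a 0 = p := by simp [ha]
  have em : a m = q := by simp only [ha]; rw [mul_div_cancel₀ _ hm0.ne']; ring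
  rw [e0, em] at htot
  have hXq : chiStar H p ≤ chiStar H q := hXmono p q le_rfl hpq.le le_rfl
  have hL : Real.log (chiStar H q) - Real.log (chiStar H p) ≤ (m : ℝ) / 2 := by
    rw [← Real.log_div (by linarith) (by linarith)]
    linarith [le_abs_self Λ₀]
  have h5 : η / 16 * ((q - p) / m) * ((m : ℝ) / 2) ≤ Z p - Z q := by
    refine le_trans (mul_le_mul_of_nonneg_left ?_ (by positivity)) htot
    linarith
  have e5 : η / 16 * ((q - p) / m) * ((m : ℝ) / 2) = η / 32 * (q - p) := by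
    field_simp
    ring
  linarith

end Vale.Agent.P151.Growth
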