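import Vale.Agent.P151.Growth.Basic
import Vale.Agent.P151.FiniteCluster

/-!
A two-ghost inequality in a finite graph: adjacent vertices rarely lie in two distinct large
clusters. The martingale of the cluster exploration is replaced by the identity expressing a change
of parameter, and ghosts by the weight `1 - exp (-k / n)` of a cluster of `k` vertices.
-/

open Finset

namespace Vale.Agent.P151.Growth

open Vale.Agent.P165 Vale.Agent.P151.Fin

variable {W : Type*} [DecidableEq W] {H : SimpleGraph W} [H.LocallyFinite]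

/-- The vertices of `Λ` in the cluster of `a`. -/
noncomputable def kset (Λ : Finset W) (a : W) (S : Finset (Sym2 W)) : Finset W :=
  open scoped Classical in Λ.filter fun v => v ∈ cl {a} S

/-- The neighbours inside `Λ`. -/
noncomputable def nbr (H : SimpleGraph W) [H.LocallyFinite] (Λ : Finset W) (a : W) : Finset W :=
  H.neighborFinset a ∩ Λ

/-- The weight of a cluster. -/
noncomputable def gw (n k : ℕ) : ℝ := 1 - Real.exp (-(k : ℝ) / n)

lemma gw_nonneg (n k : ℕ) : 0 ≤ gw n k := by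
  rw [gw, sub_nonneg, Real.exp_le_one_iff]
  exact div_nonpos_of_nonpos_of_nonneg (by simp) (Nat.cast_nonneg n)

lemma gw_le_one (n k : ℕ) : gw n k ≤ 1 := by
  rw [gw]; linarith [Real.exp_pos (-(k : ℝ) / n)]

lemma gw_le_div (n k : ℕ) : gw n k ≤ k / n := by
  rw [gw, neg_div]; linarith [Real.add_one_le_exp (-((k : ℝ) / n))]

lemma gw_add (n a b : ℕ) : gw n (a + b) = gw n a + gw n b - gw n a * gw n b := by
  simp only [gw, Nat.cast_add, neg_add, add_div, Real.exp_add]; ring

lemma gw_ge_half {n k : ℕ} (hn : 0 < n) (h : n ≤ k) : 1 / 2 ≤ gw n k := by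
  have h1 : Real.exp (-(k : ℝ) / n) ≤ Real.exp (-1) := by
    refine Real.exp_le_exp.2 ?_
    rw [div_le_iff₀ (Nat.cast_pos.2 hn)]
    have : (n : ℝ) ≤ k := by exact_mod_cast h
    linarith
  have h2 : Real.exp (-1) ≤ 1 / 2 := by
    rw [Real.exp_neg, one_div]
    exact inv_anti₀ two_pos (by linarith [Real.add_one_le_exp (1 : ℝ)])
  rw [gw]; linarith

section Cluster

variable {Λ : Finset W} {S : Finset (Sym2 W)}

lemma mem_kset {a v : W} : v ∈ kset Λ a S ↔ v ∈ Λ ∧ v ∈ cl {a} S := by simp [kset]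

lemma cl_subset_window (hS : S ⊆ inEdges H Λ) {a : W} (ha : a ∈ Λ) :
    cl {a} S ⊆ (↑Λ : Set W) :=
  cl_subset (by simpa using ha) fun _ _ _ h => (mem_inEdges.1 (hS h)).2.2

lemma mem_kset_iff (hS : S ⊆ inEdges H Λ) {a v : W} (ha : a ∈ Λ) :
    v ∈ kset Λ a S ↔ v ∈ cl {a} S :=
  mem_kset.trans ⟨fun h => h.2, fun h => ⟨cl_subset_window hS ha h, h⟩⟩

lemma kset_congr {a b : W} (h : b ∈ cl {a} S) : kset Λ b S = kset Λ a S := by
  ext v; simp [mem_kset, cl_eq_of_mem h]

lemma conn_comm {a b : W} (h : b ∈ cl {a} S) : a ∈ cl {b} S := by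
  rw [cl_eq_of_mem h]; exact subset_cl _ _ rfl

/-- The edges near the cluster of `a` share the signed count between the vertices of the cluster. -/
lemma sum_share (p : ℝ) {a : W} (ha : a ∈ Λ) (hS : S ⊆ inEdges H Λ) :
    ∑ v ∈ kset Λ a S, ∑ b ∈ nbr H Λ v,
      (ind (s(v, b) ∈ S) - p - p * ind (b ∉ cl {v} S)) =
    2 * ((clu {a} S).card - p * (near (cl {a} S) (inEdges H Λ)).card) := by
  classical
  have hterm : ∀ v ∈ kset Λ a S, ∀ b ∈ nbr H Λ v,
      ind (s(v, b) ∈ S) - p - p * ind (b ∉ cl {v} S)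
        = (1 + ind (b ∉ cl {a} S)) * (ind (s(v, b) ∈ S) - p) := by
    intro v hv b _
    rw [cl_eq_of_mem (mem_kset.1 hv).2]
    by_cases hb : b ∈ cl {a} S
    · simp [ind, hb]
    · have : s(v, b) ∉ S := fun h => hb (cl_step (mem_kset.1 hv).2 h)
      simp [ind, hb, this]; ring
  rw [sum_congr rfl fun v hv => sum_congr rfl (hterm v hv), sum_sigma']
  set P := (kset Λ a S).sigma fun v => nbr H Λ v
  set N := near (cl {a} S) (inEdges H Λ)
  have hmaps : ∀ x ∈ P, s(x.1, x.2) ∈ N := by
    rintro ⟨v, b⟩ hx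
    obtain ⟨hv, hb⟩ := mem_sigma.1 hx
    obtain ⟨hb1, hb2⟩ := mem_inter.1 hb
    refine mem_near.2 ⟨mem_inEdges.2 ⟨(H.mem_neighborFinset _ _).1 hb1, (mem_kset.1 hv).1, hb2⟩,
      v, Sym2.mem_mk_left _ _, (mem_kset.1 hv).2⟩
  rw [← sum_fiberwise_of_maps_to hmaps]
  have hfib : ∀ e ∈ N, ∑ x ∈ P with s(x.1, x.2) = e,
      (1 + ind (x.2 ∉ cl {a} S)) * (ind (s(x.1, x.2) ∈ S) - p) = 2 * (ind (e ∈ S) - p) := by
    intro e he
    induction e using Sym2.ind with
    | h u w =>
    obtain ⟨he, v, hv, hvc⟩ := mem_near.1 he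
    obtain ⟨hadj, hu, hw⟩ := mem_inEdges.1 he
    clear he
    suffices ∀ u w : W, H.Adj u w → u ∈ Λ → w ∈ Λ → u ∈ cl {a} S →
        ∑ x ∈ P with s(x.1, x.2) = s(u, w),
          (1 + ind (x.2 ∉ cl {a} S)) * (ind (s(x.1, x.2) ∈ S) - p) =
        2 * (ind (s(u, w) ∈ S) - p) by
      rcases Sym2.mem_iff.1 hv with rfl | rfl
      · exact this _ _ hadj hu hw hvc
      · have := this _ _ hadj.symm hw hu hvc
        rwa [Sym2.eq_swap] at this
    clear hv hvc hadj hu hw
    intro u w hadj hu hw huc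
    have hmem : ∀ x : Σ _ : W, W, x ∈ P ∧ s(x.1, x.2) = s(u, w) ↔
        x = ⟨u, w⟩ ∨ (x = ⟨w, u⟩ ∧ w ∈ cl {a} S) := by
      rintro ⟨x, y⟩
      constructor
      · rintro ⟨hx, hxy⟩
        rcases Sym2.eq_iff.1 hxy with ⟨rfl, rfl⟩ | ⟨rfl, rfl⟩
        · exact Or.inl rfl
        · exact Or.inr ⟨rfl, (mem_kset.1 (mem_sigma.1 hx).1).2⟩
      · rintro (h | ⟨h, hwc⟩) <;> simp only [Sigma.mk.injEq, heq_eq_eq] at h <;>
          obtain ⟨rfl, rfl⟩ := h
        · exact ⟨mem_sigma.2 ⟨mem_kset.2 ⟨hu, huc⟩,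
            mem_inter.2 ⟨(H.mem_neighborFinset _ _).2 hadj, hw⟩⟩, rfl⟩
        · exact ⟨mem_sigma.2 ⟨mem_kset.2 ⟨hw, hwc⟩,
            mem_inter.2 ⟨(H.mem_neighborFinset _ _).2 hadj.symm, hu⟩⟩, Sym2.eq_swap⟩
    by_cases hwc : w ∈ cl {a} S
    · have hset : P.filter (fun x => s(x.1, x.2) = s(u, w))
          = {(⟨u, w⟩ : Σ _ : W, W), ⟨w, u⟩} := by
        ext x; rw [mem_filter, hmem]; simp [hwc]
      rw [hset, sum_pair (by simp [hadj.ne])]
      simp only [Sym2.eq_swap (a := w) (b := u)]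
      simp [ind, hwc, huc]; ring
    · have hset : P.filter (fun x => s(x.1, x.2) = s(u, w)) = {(⟨u, w⟩ : Σ _ : W, W)} := by
        ext x; rw [mem_filter, hmem]; simp [hwc]
      rw [hset, sum_singleton]
      have hne : s(u, w) ∉ S := fun h => hwc (cl_step huc h)
      rw [ind_false hne, ind_true hwc]; ring
  rw [sum_congr rfl hfib, ← mul_sum, sum_sub_distrib, sum_const, nsmul_eq_mul]
  have hc : ∑ e ∈ N, ind (e ∈ S) = ((clu {a} S).card : ℝ) := by
    have : (N.filter fun e => e ∈ S) = clu {a} S := by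
      ext e
      simp only [N, mem_filter, mem_near, clu]
      exact ⟨fun h => ⟨h.2, h.1.2⟩, fun h => ⟨⟨hS h.1, h.2⟩, h.1⟩⟩
    rw [← this, natCast_card_filter]
    refine sum_congr rfl fun e _ => ?_
    by_cases he : e ∈ S <;> simp [ind, he]
  rw [hc]; ring

end Cluster

/-- A function of the cluster of `a` is averaged with explicit weights. -/
lemma ev_clu_eq (t : ℝ) (U : Finset (Sym2 W)) (a : W) (G : Finset (Sym2 W) → ℝ) :
    ev (fun _ => t) U (fun S => G (clu {a} S)) =
      ∑ K ∈ U.powerset, ind (near (cl {a} K) K = K) *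
        (t ^ K.card * (1 - t) ^ (near (cl {a} K) U \ K).card) * G K := by
  classical
  have e1 : ev (fun _ => t) U (fun S => G (clu {a} S)) = ∑ K ∈ U.powerset,
      ev (fun _ => t) U fun S => ind (near (cl {a} K) S = K) * G K := by
    rw [← ev_sum]
    refine ev_congr fun S hS => ?_
    rw [sum_eq_single (clu {a} S)]
    · rw [ind_true ((clu_eq_iff {a} S _).1 rfl), one_mul]
    · intro K _ hK
      rw [ind_false fun h => hK ((clu_eq_iff {a} S K).2 h).symm, zero_mul]
    · exact fun h => absurd (mem_powerset.2 ((clu_subset {a} S).trans hS)) h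
  rw [e1]
  refine sum_congr rfl fun K hK => ?_
  rw [mem_powerset] at hK
  set V := cl {a} K
  have hev : ev (fun _ => t) U (fun S => ind (near V S = K) * G K) =
      ev (fun _ => t) U (fun S => ind (S ∩ near V U = K)) * G K := by
    rw [mul_comm _ (G K), ← ev_mul_left]
    refine ev_congr fun S hS => ?_
    have : S ∩ near V U = near V S := by
      ext e; simp only [mem_inter, mem_near]
      exact ⟨fun h => ⟨h.1, h.2.2⟩, fun h => ⟨h.1, hS h.1, h.2⟩⟩
    rw [this]; ring
  rw [hev]
  congr 1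
  rw [ev_marginal (near_subset V U) (fun S => ind (S = K)), ev]
  by_cases hc : near V K = K
  · have hKN : K ⊆ near V U := fun e he => by
      rw [← hc] at he; exact mem_near.2 ⟨hK (mem_near.1 he).1, (mem_near.1 he).2⟩
    rw [sum_eq_single K, ind_true hc, ind_true rfl]
    · simp [Fin.wt, prod_const]
    · intro b _ hb; simp [ind, hb]
    · exact fun h => absurd (mem_powerset.2 hKN) h
  · rw [ind_false hc, zero_mul]
    refine sum_eq_zero fun S hS => ?_
    rw [ind_false, mul_zero]
    rintro rfl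
    refine hc (Finset.Subset.antisymm (near_subset _ _) fun e he => ?_)
    exact mem_near.2 ⟨he, (mem_near.1 (mem_powerset.1 hS he)).2⟩

section Moment

variable {p : ℝ} {Λ : Finset W} {D : ℕ}

/-- The signed count of the edges near the cluster of `a`. -/
noncomputable def zst (H : SimpleGraph W) [H.LocallyFinite] (p : ℝ) (Λ : Finset W) (a : W)
    (S : Finset (Sym2 W)) : ℝ :=
  (clu {a} S).card - p * (near (cl {a} S) (inEdges H Λ)).card

lemma near_card_le (hD : ∀ x, (H.neighborFinset x).card ≤ D) {a : W} (ha : a ∈ Λ)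
    {S : Finset (Sym2 W)} (hS : S ⊆ inEdges H Λ) :
    (near (cl {a} S) (inEdges H Λ)).card ≤ (kset Λ a S).card * D := by
  refine le_trans (card_le_card (t := (kset Λ a S).biUnion fun v =>
    (H.neighborFinset v).image fun b => s(v, b)) ?_)
    (card_biUnion_le_card_mul _ _ _ fun v _ => card_image_le.trans (hD v))
  intro e
  induction e using Sym2.ind with
  | h u w =>
    intro he
    obtain ⟨he, v, hv, hvc⟩ := mem_near.1 he
    obtain ⟨hadj, -, -⟩ := mem_inEdges.1 he
    refine mem_biUnion.2 ⟨v, (mem_kset_iff hS ha).2 hvc, ?_⟩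
    rcases Sym2.mem_iff.1 hv with rfl | rfl
    · exact mem_image.2 ⟨w, by simpa using hadj, rfl⟩
    · exact mem_image.2 ⟨u, by simpa using hadj.symm, Sym2.eq_swap⟩

lemma sub_sq_le_log {z : ℝ} (hz : |z| ≤ 1 / 2) : z - 2 * z ^ 2 ≤ Real.log (1 + z) := by
  have h := Real.abs_log_sub_add_sum_range_le (x := -z) (by rw [abs_neg]; linarith) 1
  simp only [sum_range_one, zero_add, pow_one, Nat.cast_zero, div_one, sub_neg_eq_add,
    abs_neg, show (1 : ℕ) + 1 = 2 from rfl, sq_abs] at h
  have h' : z ^ 2 / (1 - |z|) ≤ 2 * z ^ 2 := by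
    rw [div_le_iff₀ (by linarith)]
    nlinarith [sq_nonneg z]
  linarith [(abs_le.1 h).1]

/-- A cluster edge set with `o` open and `f` closed edges, compared at the tilted parameter. -/
lemma tilt_weight (h0 : 0 < p) (h1 : p < 1) {x y σ s m : ℝ} {o f : ℕ} (hσ : σ ^ 2 = 1)
    (hs : 1 ≤ s) (hm : s * s = m) (hx : x = σ * (1 - p) / (2 * s))
    (hy : y = -(σ * p / (2 * s))) (hxb : |x| ≤ 1 / 2) (hyb : |y| ≤ 1 / 2)
    (hfD : (o : ℝ) + f ≤ m * D) :
    p ^ o * (1 - p) ^ f * Real.exp (σ * ((1 - p) * o - p * f) / (2 * s)) ≤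
      Real.exp (D / 2) * ((p * (1 + x)) ^ o * ((1 - p) * (1 + y)) ^ f) := by
  have hm' : 0 < m := by nlinarith
  have hxp : 0 < 1 + x := by linarith [(abs_le.1 hxb).1]
  have hyp : 0 < 1 + y := by linarith [(abs_le.1 hyb).1]
  have hmain : σ * ((1 - p) * o - p * f) / (2 * s) = o * x + f * y := by
    rw [hx, hy]; ring
  have hbd : ∀ r : ℝ, 0 ≤ r → r ≤ 1 → (σ * r / (2 * s)) ^ 2 ≤ 1 / (4 * m) := by
    intro r hr0 hr1
    rw [div_pow, mul_pow, hσ, one_mul, show (2 * s) ^ 2 = 4 * m by rw [← hm]; ring]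
    exact div_le_div_of_nonneg_right (by nlinarith) (by positivity)
  have hxs := hbd (1 - p) (by linarith) (by linarith)
  have hys := hbd p h0.le h1.le
  rw [← hx] at hxs
  rw [← neg_sq, ← hy] at hys
  have hsum : (o : ℝ) * (2 * x ^ 2) + f * (2 * y ^ 2) ≤ D / 2 := by
    calc _ ≤ ((o : ℝ) + f) * (2 * (1 / (4 * m))) := by
          nlinarith [mul_le_mul_of_nonneg_left hxs (Nat.cast_nonneg (α := ℝ) o),
            mul_le_mul_of_nonneg_left hys (Nat.cast_nonneg (α := ℝ) f)]
      _ ≤ (m * D) * (2 * (1 / (4 * m))) := mul_le_mul_of_nonneg_right hfD (by positivity)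
      _ = _ := by field_simp; ring
  have hexp : σ * ((1 - p) * o - p * f) / (2 * s) - D / 2 ≤
      o * Real.log (1 + x) + f * Real.log (1 + y) := by
    have hA := mul_le_mul_of_nonneg_left (sub_sq_le_log hxb) (Nat.cast_nonneg (α := ℝ) o)
    have hB := mul_le_mul_of_nonneg_left (sub_sq_le_log hyb) (Nat.cast_nonneg (α := ℝ) f)
    rw [hmain]; linarith
  have := Real.exp_le_exp.2 hexp
  rw [Real.exp_sub, Real.exp_add, Real.exp_nat_mul, Real.exp_nat_mul, Real.exp_log hxp,
    Real.exp_log hyp, div_le_iff₀ (Real.exp_pos _)] at this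
  rw [mul_pow, mul_pow]
  have hpos : 0 ≤ p ^ o * (1 - p) ^ f :=
    mul_nonneg (pow_nonneg h0.le _) (pow_nonneg (sub_pos.2 h1).le _)
  calc _ ≤ p ^ o * (1 - p) ^ f * ((1 + x) ^ o * (1 + y) ^ f * Real.exp (D / 2)) :=
        mul_le_mul_of_nonneg_left this hpos
    _ = _ := by ring

/-- The exponential moment of the signed count of a cluster of bounded size. -/
lemma exp_zst_le (h0 : 0 < p) (h1 : p < 1) (hD : ∀ x, (H.neighborFinset x).card ≤ D) {a : W}
    (ha : a ∈ Λ) {m : ℕ} (hm : 0 < m) {σ : ℝ} (hσ : σ ^ 2 = 1) :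
    ev (fun _ => p) (inEdges H Λ) (fun S => ind ((kset Λ a S).card ≤ m) *
        Real.exp (σ * zst H p Λ a S / (2 * Real.sqrt m))) ≤ Real.exp (D / 2) := by
  classical
  set U := inEdges H Λ with hUdef
  set s := Real.sqrt m with hs
  have hsq : s * s = m := Real.mul_self_sqrt (Nat.cast_nonneg m)
  have hs1 : 1 ≤ s := by rw [hs, Real.one_le_sqrt]; exact_mod_cast hm
  set x := σ * (1 - p) / (2 * s) with hx
  set y := -(σ * p / (2 * s)) with hy
  have hσ1 : |σ| = 1 := by
    rcases sq_eq_one_iff.1 hσ with rfl | rfl <;> simp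
  have hb : ∀ r : ℝ, 0 ≤ r → r ≤ 1 → |σ * r / (2 * s)| ≤ 1 / 2 := by
    intro r hr0 hr1
    rw [abs_div, abs_mul, hσ1, abs_of_pos (show 0 < 2 * s by linarith), abs_of_nonneg hr0,
      div_le_iff₀ (by linarith)]
    linarith
  have hxb : |x| ≤ 1 / 2 := hb _ (by linarith) (by linarith)
  have hyb : |y| ≤ 1 / 2 := by rw [hy, abs_neg]; exact hb _ h0.le h1.le
  have hp' : 1 - p * (1 + x) = (1 - p) * (1 + y) := by rw [hx, hy]; ring
  set p' := p * (1 + x) with hp'def
  have hp0' : 0 ≤ p' := mul_nonneg h0.le (by linarith [(abs_le.1 hxb).1])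
  have hp1' : 0 ≤ 1 - p' := by
    rw [hp']; exact mul_nonneg (by linarith) (by linarith [(abs_le.1 hyb).1])
  set G : Finset (Sym2 W) → ℝ := fun K => ind ((kset Λ a K).card ≤ m) *
    Real.exp (σ * zst H p Λ a K / (2 * s)) with hG
  have hGe : ∀ S, S ⊆ U → G (clu {a} S) = ind ((kset Λ a S).card ≤ m) *
      Real.exp (σ * zst H p Λ a S / (2 * s)) := fun S _ => by
    simp only [hG, zst, kset, cl_clu, clu_clu]
  rw [← ev_congr hGe, ev_clu_eq]
  have htot := ev_clu_eq (W := W) p' U a fun _ => (1 : ℝ)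
  rw [ev_const] at htot
  simp only [mul_one] at htot
  calc _ ≤ Real.exp (D / 2) * ∑ K ∈ U.powerset, ind (near (cl {a} K) K = K) *
        (p' ^ K.card * (1 - p') ^ (near (cl {a} K) U \ K).card) := by
        rw [mul_sum]
        refine sum_le_sum fun K hK => ?_
        rw [mem_powerset] at hK
        by_cases hc : near (cl {a} K) K = K
        swap
        · rw [ind_false hc, zero_mul, zero_mul, zero_mul, mul_zero]
        rw [ind_true hc, one_mul, one_mul]
        simp only [hG]
        by_cases hk : (kset Λ a K).card ≤ m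
        swap
        · rw [ind_false hk, zero_mul, mul_zero]
          exact mul_nonneg (Real.exp_nonneg _) (mul_nonneg (pow_nonneg hp0' _) (pow_nonneg hp1' _))
        rw [ind_true hk, one_mul]
        have hKN : K ⊆ near (cl {a} K) U := fun e he => by
          rw [← hc] at he; exact mem_near.2 ⟨hK (mem_near.1 he).1, (mem_near.1 he).2⟩
        have hN : ((near (cl {a} K) U).card : ℝ) =
            K.card + (near (cl {a} K) U \ K).card := by
          rw [← card_sdiff_add_card_eq_card hKN]; push_cast; ring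
        have hz : zst H p Λ a K =
            (1 - p) * K.card - p * (near (cl {a} K) U \ K).card := by
          rw [zst, show clu {a} K = K from hc, ← hUdef, hN]; ring
        have hfD : (K.card : ℝ) + (near (cl {a} K) U \ K).card ≤ m * D := by
          rw [← hN]
          exact_mod_cast (near_card_le hD ha hK).trans (Nat.mul_le_mul_right D hk)
        rw [hz, hp']
        exact tilt_weight h0 h1 hσ hs1 hsq hx hy hxb hyb hfD
    _ = _ := by rw [← htot, mul_one]

/-- The signed count of a cluster of at most `m` vertices is of order `√m`. -/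
theorem abs_zst_le (h0 : 0 < p) (h1 : p < 1) (hD : ∀ x, (H.neighborFinset x).card ≤ D) {a : W}
    (ha : a ∈ Λ) {m : ℕ} (hm : 0 < m) :
    ev (fun _ => p) (inEdges H Λ)
        (fun S => ind ((kset Λ a S).card ≤ m) * |zst H p Λ a S|) ≤
      4 * Real.exp (D / 2) * Real.sqrt m := by
  have hs : 0 < 2 * Real.sqrt m := mul_pos two_pos (Real.sqrt_pos.2 (Nat.cast_pos.2 hm))
  have h := add_le_add (exp_zst_le h0 h1 hD ha hm (σ := 1) (by norm_num))
    (exp_zst_le h0 h1 hD ha hm (σ := -1) (by norm_num))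
  rw [← ev_add] at h
  calc _ ≤ ev (fun _ => p) (inEdges H Λ) (fun S => (2 * Real.sqrt m) *
        (ind ((kset Λ a S).card ≤ m) * Real.exp (1 * zst H p Λ a S / (2 * Real.sqrt m)) +
          ind ((kset Λ a S).card ≤ m) *
            Real.exp ((-1) * zst H p Λ a S / (2 * Real.sqrt m)))) := by
        refine ev_mono (fun _ => h0.le) (fun _ => h1.le) fun S _ => ?_
        rw [← mul_add, ← mul_left_comm]
        refine mul_le_mul_of_nonneg_left ?_ (ind_nonneg _)
        rw [one_mul, neg_one_mul, neg_div, ← div_le_iff₀' hs]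
        set z := zst H p Λ a S / (2 * Real.sqrt m) with hz
        rw [show |zst H p Λ a S| / (2 * Real.sqrt m) = |z| by rw [hz, abs_div, abs_of_pos hs]]
        rcases abs_cases z with ⟨e, _⟩ | ⟨e, _⟩ <;> rw [e]
        · linarith [Real.add_one_le_exp z, Real.exp_pos (-z)]
        · linarith [Real.add_one_le_exp (-z), Real.exp_pos z]
    _ ≤ _ := by
        rw [ev_mul_left]
        nlinarith [mul_le_mul_of_nonneg_left h hs.le]

/-- Averaged with the weight per vertex the signed count is of order `n ^ (-1/2)`. -/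
theorem weighted_zst_le (h0 : 0 < p) (h1 : p < 1) (hD : ∀ x, (H.neighborFinset x).card ≤ D)
    {a : W} (ha : a ∈ Λ) {n : ℕ} (hn : 0 < n) :
    ev (fun _ => p) (inEdges H Λ)
        (fun S => gw n (kset Λ a S).card / (kset Λ a S).card * |zst H p Λ a S|) ≤
      9 * (4 * Real.exp (D / 2)) / Real.sqrt n := by
  classical
  set U := inEdges H Λ
  set C := 4 * Real.exp ((D : ℝ) / 2)
  have hC : 0 ≤ C := by positivity
  have hsn : 0 < Real.sqrt n := Real.sqrt_pos.2 (Nat.cast_pos.2 hn)
  have hsq : Real.sqrt n * Real.sqrt n = n := Real.mul_self_sqrt (Nat.cast_nonneg n)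
  set φ : Finset (Sym2 W) → ℝ := fun S =>
    gw n (kset Λ a S).card / (kset Λ a S).card * |zst H p Λ a S| with hφ
  have hw : ∀ (S : Finset (Sym2 W)) (B : ℝ), 0 < B → (B ≤ n ∨ B ≤ ((kset Λ a S).card : ℝ)) →
      φ S ≤ B⁻¹ * |zst H p Λ a S| := by
    intro S B hB h
    refine mul_le_mul_of_nonneg_right ?_ (abs_nonneg _)
    rcases Nat.eq_zero_or_pos (kset Λ a S).card with hk | hk
    · simp only [hk, Nat.cast_zero, div_zero]; positivity
    have hk' : (0 : ℝ) < (kset Λ a S).card := Nat.cast_pos.2 hk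
    rw [div_le_iff₀ hk', inv_mul_eq_div, le_div_iff₀ hB]
    rcases h with h | h
    · calc _ ≤ gw n (kset Λ a S).card * n := mul_le_mul_of_nonneg_left h (gw_nonneg _ _)
        _ ≤ _ := by
          have := gw_le_div n (kset Λ a S).card
          rwa [le_div_iff₀ (Nat.cast_pos.2 hn)] at this
    · calc _ ≤ 1 * ((kset Λ a S).card : ℝ) := mul_le_mul (gw_le_one _ _) h hB.le zero_le_one
        _ = _ := one_mul _
  have step : ∀ i : ℕ, ev (fun _ => p) U (fun S => ind ((kset Λ a S).card ≤ 2 ^ i * n) * φ S) ≤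
      C / Real.sqrt n * (9 - 8 * (3 / 4) ^ i) := by
    intro i
    induction i with
    | zero =>
      have hb := abs_zst_le h0 h1 hD ha hn
      calc _ ≤ ev (fun _ => p) U (fun S => (n : ℝ)⁻¹ *
            (ind ((kset Λ a S).card ≤ n) * |zst H p Λ a S|)) := by
            refine ev_mono (fun _ => h0.le) (fun _ => h1.le) fun S _ => ?_
            rw [pow_zero, one_mul, mul_left_comm (n : ℝ)⁻¹]
            exact mul_le_mul_of_nonneg_left (hw S n (Nat.cast_pos.2 hn) (Or.inl le_rfl))
              (ind_nonneg _)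
        _ ≤ (n : ℝ)⁻¹ * (C * Real.sqrt n) := by
            rw [ev_mul_left]; exact mul_le_mul_of_nonneg_left hb (by positivity)
        _ = C / Real.sqrt n := by
            rw [eq_div_iff hsn.ne', mul_assoc, mul_assoc, hsq, mul_comm C, ← mul_assoc,
              inv_mul_cancel₀ (Nat.cast_ne_zero.2 hn.ne'), one_mul]
        _ = _ := by norm_num
    | succ i ih =>
      have hm : 0 < 2 ^ (i + 1) * n := by positivity
      have hb := abs_zst_le h0 h1 hD ha hm
      have hpow : (0 : ℝ) < 2 ^ i * n := by positivity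
      calc _ ≤ ev (fun _ => p) U (fun S => ind ((kset Λ a S).card ≤ 2 ^ i * n) * φ S +
            ((2 : ℝ) ^ i * n)⁻¹ *
              (ind ((kset Λ a S).card ≤ 2 ^ (i + 1) * n) * |zst H p Λ a S|)) := by
            refine ev_mono (fun _ => h0.le) (fun _ => h1.le) fun S _ => ?_
            by_cases hk : (kset Λ a S).card ≤ 2 ^ i * n
            · rw [ind_true hk, ind_true (hk.trans (Nat.mul_le_mul_right _
                (Nat.pow_le_pow_right two_pos i.le_succ))), one_mul, one_mul]
              linarith [mul_nonneg (inv_nonneg.2 hpow.le) (abs_nonneg (zst H p Λ a S))]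
            · rw [ind_false hk, zero_mul, zero_add, mul_left_comm ((2 : ℝ) ^ i * n)⁻¹]
              refine mul_le_mul_of_nonneg_left (hw S _ hpow (Or.inr ?_)) (ind_nonneg _)
              exact_mod_cast (not_le.1 hk).le
        _ ≤ C / Real.sqrt n * (9 - 8 * (3 / 4) ^ i) +
            ((2 : ℝ) ^ i * n)⁻¹ * (C * Real.sqrt ((2 ^ (i + 1) * n : ℕ) : ℝ)) := by
            rw [ev_add, ev_mul_left]
            exact add_le_add ih (mul_le_mul_of_nonneg_left hb (inv_nonneg.2 hpow.le))
        _ ≤ C / Real.sqrt n * (9 - 8 * (3 / 4) ^ i) +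
            C / Real.sqrt n * (2 * (3 / 4) ^ i) := by
            refine add_le_add le_rfl ?_
            push_cast
            rw [Real.sqrt_mul (by positivity)]
            set t := Real.sqrt ((2 : ℝ) ^ (i + 1))
            have ht : t ≤ 2 ^ i * (2 * (3 / 4) ^ i) := by
              rw [Real.sqrt_le_left (by positivity), mul_pow, mul_pow, ← pow_mul, ← pow_mul,
                Nat.mul_comm i 2, pow_mul, pow_mul, pow_succ]
              norm_num
              rw [show (4 : ℝ) ^ i * (4 * (9 / 16) ^ i) = 4 * (9 / 4) ^ i by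
                rw [mul_left_comm, ← mul_pow]; norm_num]
              have : (2 : ℝ) ^ i ≤ (9 / 4) ^ i := pow_le_pow_left₀ (by norm_num) (by norm_num) i
              nlinarith [pow_nonneg (show (0:ℝ) ≤ 2 by norm_num) i]
            calc ((2 : ℝ) ^ i * n)⁻¹ * (C * (t * Real.sqrt n))
                = C / Real.sqrt n * (t / 2 ^ i) := by
                  have hn' : (n : ℝ) ≠ 0 := Nat.cast_ne_zero.2 hn.ne'
                  field_simp
                  rw [Real.sq_sqrt (Nat.cast_nonneg n)]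
                  ring
              _ ≤ _ := by
                  refine mul_le_mul_of_nonneg_left ?_ (by positivity)
                  rw [div_le_iff₀ (by positivity), mul_comm]; exact ht
        _ = _ := by rw [pow_succ]; ring
  calc ev (fun _ => p) U φ = ev (fun _ => p) U
        (fun S => ind ((kset Λ a S).card ≤ 2 ^ Λ.card * n) * φ S) := by
        refine ev_congr fun S _ => ?_
        rw [ind_true, one_mul]
        calc (kset Λ a S).card ≤ Λ.card := card_le_card fun v hv => (mem_kset.1 hv).1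
          _ ≤ 2 ^ Λ.card := Nat.lt_two_pow_self.le
          _ ≤ _ := Nat.le_mul_of_pos_right _ hn
    _ ≤ C / Real.sqrt n * (9 - 8 * (3 / 4) ^ Λ.card) := step _
    _ ≤ C / Real.sqrt n * 9 := mul_le_mul_of_nonneg_left
        (by linarith [pow_nonneg (show (0:ℝ) ≤ 3 / 4 by norm_num) Λ.card]) (by positivity)
    _ = _ := by ring

/-- The two-ghost inequality. -/
theorem two_ghost (h0 : 0 < p) (h1 : p < 1) (hD : ∀ x, (H.neighborFinset x).card ≤ D)
    {n : ℕ} (hn : 0 < n) :
    ∑ a ∈ Λ, ∑ b ∈ nbr H Λ a, Fin.pr (fun _ => p) (inEdges H Λ) (Two a b n) ≤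
      288 * Real.exp (D / 2) / p * Λ.card / Real.sqrt n := by
  classical
  set U := inEdges H Λ
  set g : Finset (Sym2 W) → W → ℝ := fun S a => gw n (kset Λ a S).card
  set ux : W → W → Finset (Sym2 W) → ℝ := fun a b S =>
    gw n (Λ.filter fun v => v ∈ cl {a} (S.erase s(a, b)) ∨ v ∈ cl {b} (S.erase s(a, b))).card
  -- each edge carries a centred term
  have hzero : ∀ a ∈ Λ, ∀ b ∈ nbr H Λ a,
      ev (fun _ => p) U (fun S => (ind (s(a, b) ∈ S) - p) * ux a b S) = 0 := by
    intro a ha b hb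
    obtain ⟨hb1, hb2⟩ := mem_inter.1 hb
    have he : s(a, b) ∈ U := mem_inEdges.2 ⟨(H.mem_neighborFinset _ _).1 hb1, ha, hb2⟩
    rw [← insert_erase he, ev_insert (notMem_erase _ _)]
    rw [← ev_mul_left, ← ev_mul_left, ← ev_add]
    refine (ev_congr fun S hS => ?_).trans (ev_const 0)
    have hS' : s(a, b) ∉ S := fun h => notMem_erase _ _ (hS h)
    simp [ux, ind, erase_insert hS', hS']
    ring
  -- the deterministic identity
  have hid : ∀ S, S ⊆ U → ∑ a ∈ Λ, ∑ b ∈ nbr H Λ a, (ind (s(a, b) ∈ S) - p) * ux a b S =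
      (∑ a ∈ Λ, g S a * ∑ b ∈ nbr H Λ a, (ind (s(a, b) ∈ S) - p - p * ind (b ∉ cl {a} S))) +
        p * ∑ a ∈ Λ, ∑ b ∈ nbr H Λ a, ind (b ∉ cl {a} S) * (g S a * g S b) := by
    intro S hS
    have hsw : ∑ a ∈ Λ, ∑ b ∈ nbr H Λ a, ind (b ∉ cl {a} S) * g S b =
        ∑ a ∈ Λ, ∑ b ∈ nbr H Λ a, ind (b ∉ cl {a} S) * g S a := by
      rw [sum_comm' (t' := Λ) (s' := fun b => nbr H Λ b)]
      · refine sum_congr rfl fun b _ => sum_congr rfl fun a _ => ?_
        rw [ind_congr (not_congr ⟨conn_comm, conn_comm⟩)]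
      · intro a b
        simp only [nbr, mem_inter, SimpleGraph.mem_neighborFinset]
        constructor
        · rintro ⟨ha, hab, hb⟩; exact ⟨⟨hab.symm, ha⟩, hb⟩
        · rintro ⟨⟨hab, ha⟩, hb⟩; exact ⟨ha, hab.symm, hb⟩
    have hterm : ∀ a ∈ Λ, ∀ b ∈ nbr H Λ a, (ind (s(a, b) ∈ S) - p) * ux a b S =
        g S a * (ind (s(a, b) ∈ S) - p - p * ind (b ∉ cl {a} S)) +
          p * (ind (b ∉ cl {a} S) * (g S a * g S b)) +
          p * (ind (b ∉ cl {a} S) * g S a - ind (b ∉ cl {a} S) * g S b) := by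
      intro a ha b hb
      set e := s(a, b) with he
      have hclE : ∀ v, (v ∈ cl {a} (S.erase e) ∨ v ∈ cl {b} (S.erase e)) ↔
          v ∈ cl {a, b} (S.erase e) := fun v => by simp [cl]
      have hsub : cl {a, b} (S.erase e) ⊆ cl {a, b} S := cl_mono subset_rfl (erase_subset _ _)
      have hback : cl {a, b} S ⊆ cl {a, b} (S.erase e) := by
        refine cl_subset (subset_cl _ _) fun y z hy hyz => ?_
        by_cases h : s(y, z) = e
        · rcases Sym2.eq_iff.1 h with ⟨rfl, rfl⟩ | ⟨rfl, rfl⟩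
          · exact subset_cl _ _ (by simp)
          · exact subset_cl _ _ (by simp)
        · exact cl_step hy (mem_erase.2 ⟨h, hyz⟩)
      have hux : ux a b S = gw n (kset Λ a S ∪ kset Λ b S).card := by
        simp only [ux]
        congr 2
        ext v
        rw [mem_filter, mem_union, mem_kset, mem_kset, hclE,
          show cl {a, b} (S.erase e) = cl {a, b} S from Set.Subset.antisymm hsub hback]
        simp [cl]; tauto
      by_cases hab : b ∈ cl {a} S
      · rw [hux, kset_congr hab, union_self]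
        simp [g, ind, hab]; ring
      · have hdis : Disjoint (kset Λ a S) (kset Λ b S) := disjoint_left.2 fun v hv hv' => hab (by
          have h1 := cl_eq_of_mem (mem_kset.1 hv).2
          have h2 := cl_eq_of_mem (mem_kset.1 hv').2
          rw [← h1, h2]; exact subset_cl _ _ rfl)
        have hne : e ∉ S := fun h => hab (cl_step (subset_cl _ _ rfl) h)
        rw [hux, card_union_of_disjoint hdis, gw_add]
        simp [g, ind, hab, hne]; ring
    rw [sum_congr rfl fun a ha => sum_congr rfl (hterm a ha)]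
    simp only [sum_add_distrib, sum_sub_distrib, ← mul_sum, hsw, sub_self, mul_zero, add_zero]
  -- average
  have hE : p * ev (fun _ => p) U
        (fun S => ∑ a ∈ Λ, ∑ b ∈ nbr H Λ a, ind (b ∉ cl {a} S) * (g S a * g S b)) ≤
      2 * (Λ.card * (9 * (4 * Real.exp (D / 2)) / Real.sqrt n)) := by
    have h := ev_congr (p := fun _ => p) (U := U) hid
    rw [ev_add, ev_mul_left, ev_sum] at h
    simp only [ev_sum] at h
    rw [sum_eq_zero fun a ha => sum_eq_zero (hzero a ha)] at h
    have hbound : -(∑ a ∈ Λ, ev (fun _ => p) U (fun S => g S a * ∑ b ∈ nbr H Λ a,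
          (ind (s(a, b) ∈ S) - p - p * ind (b ∉ cl {a} S)))) ≤
        2 * (Λ.card * (9 * (4 * Real.exp (D / 2)) / Real.sqrt n)) := by
      rw [← ev_sum]
      calc _ = ev (fun _ => p) U (fun S => -(∑ a ∈ Λ, g S a * ∑ b ∈ nbr H Λ a,
            (ind (s(a, b) ∈ S) - p - p * ind (b ∉ cl {a} S)))) := (ev_neg _).symm
        _ ≤ ev (fun _ => p) U (fun S => ∑ a ∈ Λ, 2 *
            (gw n (kset Λ a S).card / (kset Λ a S).card * |zst H p Λ a S|)) := by
            refine ev_mono (fun _ => h0.le) (fun _ => h1.le) fun S hS => ?_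
            set ζ : W → ℝ := fun a => ∑ b ∈ nbr H Λ a,
              (ind (s(a, b) ∈ S) - p - p * ind (b ∉ cl {a} S))
            have hre : ∑ a ∈ Λ, g S a * ζ a = ∑ a ∈ Λ,
                g S a / (kset Λ a S).card * ∑ v ∈ kset Λ a S, ζ v := by
              simp only [mul_sum]
              rw [sum_comm' (t' := Λ) (s' := fun v => kset Λ v S)]
              · refine sum_congr rfl fun v hv => ?_
                have hpos : (0 : ℝ) < (kset Λ v S).card := Nat.cast_pos.2
                  (card_pos.2 ⟨v, mem_kset.2 ⟨hv, subset_cl _ _ rfl⟩⟩)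
                rw [sum_congr rfl fun a ha => by
                  rw [show g S a = g S v by
                    simp only [g, kset_congr (mem_kset.1 ha).2], kset_congr (mem_kset.1 ha).2],
                  sum_const, nsmul_eq_mul]
                field_simp
              · intro a v
                simp only [mem_kset]
                constructor
                · rintro ⟨ha, hv, hc⟩; exact ⟨⟨ha, conn_comm hc⟩, hv⟩
                · rintro ⟨⟨ha, hc⟩, hv⟩; exact ⟨ha, hv, conn_comm hc⟩
            rw [hre, ← sum_neg_distrib]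
            refine sum_le_sum fun a ha => ?_
            rw [sum_share p ha hS]
            have hq : 0 ≤ g S a / (kset Λ a S).card :=
              div_nonneg (gw_nonneg _ _) (Nat.cast_nonneg _)
            change -(g S a / _ * (2 * zst H p Λ a S)) ≤
              2 * (g S a / _ * |zst H p Λ a S|)
            nlinarith [mul_le_mul_of_nonneg_left (neg_le_abs (zst H p Λ a S)) hq]
        _ ≤ _ := by
            rw [ev_sum]
            simp only [ev_mul_left]
            rw [← mul_sum]
            refine mul_le_mul_of_nonneg_left ?_ zero_le_two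
            refine (sum_le_sum fun a ha => weighted_zst_le h0 h1 hD ha hn).trans ?_
            rw [sum_const, nsmul_eq_mul]
    rw [ev_sum]
    simp only [ev_sum]
    linarith
  have hpt : ∀ S, S ⊆ U → ∀ a ∈ Λ, ∀ b ∈ nbr H Λ a,
      ind (Two a b n S) ≤ 4 * (ind (b ∉ cl {a} S) * (g S a * g S b)) := by
    intro S hS a ha b hb
    by_cases h : Two a b n S
    swap
    · rw [ind_false h]
      exact mul_nonneg zero_le_four (mul_nonneg (ind_nonneg _)
        (mul_nonneg (gw_nonneg _ _) (gw_nonneg _ _)))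
    obtain ⟨⟨Ya, hYa, hna⟩, ⟨Yb, hYb, hnb⟩, hab⟩ := h
    have hk : ∀ c ∈ Λ, ∀ Y : Finset W, ↑Y ⊆ cl {c} S → n ≤ Y.card →
        1 / 2 ≤ g S c := fun c hc Y hY hYn => gw_ge_half hn (hYn.trans
      (card_le_card fun v hv => (mem_kset_iff hS hc).2 (hY hv)))
    rw [ind_true ⟨⟨Ya, hYa, hna⟩, ⟨Yb, hYb, hnb⟩, hab⟩, ind_true hab, one_mul]
    nlinarith [hk a ha Ya hYa hna, hk b (mem_inter.1 hb).2 Yb hYb hnb]
  calc ∑ a ∈ Λ, ∑ b ∈ nbr H Λ a, Fin.pr (fun _ => p) U (Two a b n)
      ≤ 4 * ev (fun _ => p) U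
        (fun S => ∑ a ∈ Λ, ∑ b ∈ nbr H Λ a, ind (b ∉ cl {a} S) * (g S a * g S b)) := by
        simp only [Fin.pr, ev_sum, mul_sum, ← ev_mul_left]
        exact sum_le_sum fun a ha => sum_le_sum fun b hb =>
          ev_mono (fun _ => h0.le) (fun _ => h1.le) fun S hS => hpt S hS a ha b hb
    _ ≤ 4 * (2 * (Λ.card * (9 * (4 * Real.exp (D / 2)) / Real.sqrt n)) / p) := by
        refine mul_le_mul_of_nonneg_left ?_ zero_le_four
        rw [le_div_iff₀ h0, mul_comm]; exact hE
    _ = _ := by ring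

end Moment

end Vale.Agent.P151.Growth
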